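import Vale.Agent.P043.D4.Tables

/-!
# Tiling gadgets in `ℤ² × K` with `K` of torsion rank two

The bits of the puzzle are slopes `±1` of lines in `(ℤ/p)²` for distinct odd primes `p`.
-/

namespace Vale.Agent.P043.D4

/-- The number of bits. -/
abbrev NB : ℕ := 5121

/-- The primes attached to the bits; the first one is `3`. -/
noncomputable def pr : Fin NB → ℕ :=
  Fin.cons (α := fun _ => ℕ) 3 fun i => Nat.nth Nat.Prime ((i : ℕ) + 2)

theorem pr_zero : pr 0 = 3 := rfl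

theorem pr_prime (l : Fin NB) : (pr l).Prime := by
  refine Fin.cases ?_ (fun i => ?_) l
  · rw [pr_zero]; exact Nat.prime_three
  · simp only [pr, Fin.cons_succ]; exact Nat.prime_nth_prime _

theorem pr_succ_ge (i : Fin 5120) : 5 ≤ pr i.succ := by
  simp only [pr, Fin.cons_succ]
  calc (5 : ℕ) = Nat.nth Nat.Prime 2 := Nat.nth_prime_two_eq_five.symm
    _ ≤ _ := Nat.nth_monotone Nat.infinite_setOfPred_prime (by omega)

theorem pr_ge (l : Fin NB) : 3 ≤ pr l := by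
  refine Fin.cases ?_ (fun i => ?_) l
  · rw [pr_zero]
  · exact le_trans (by norm_num) (pr_succ_ge i)

theorem pr_inj : Function.Injective pr := by
  intro a b
  refine Fin.cases ?_ (fun i => ?_) a <;> refine Fin.cases ?_ (fun j => ?_) b
  · intro; rfl
  · intro h; have := pr_succ_ge j; rw [← h, pr_zero] at this; omega
  · intro h; have := pr_succ_ge i; rw [h, pr_zero] at this; omega
  · intro h
    simp only [pr, Fin.cons_succ] at h
    have := Nat.nth_injective Nat.infinite_setOfPred_prime h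
    exact congrArg Fin.succ (Fin.ext (by omega))

instance pr_neZero (l : Fin NB) : NeZero (pr l) := ⟨(pr_prime l).ne_zero⟩

instance pr_fact (l : Fin NB) : Fact (pr l).Prime := ⟨pr_prime l⟩

/-- Track-value planes of the bits. -/
abbrev Planes := (l : Fin NB) → ZMod (pr l) × ZMod (pr l)

/-- The finite group `K`. -/
abbrev KK := K2 × Planes

/-- The group `ℤ² × K`. -/
abbrev GG := (ℤ × ℤ) × KK

/-- `A` is a tiling of `ℤ² × K` by `F`. -/
def GTiles (F : Finset GG) (A : Set GG) : Prop := ∀ g, ∃! a, a ∈ A ∧ g - a ∈ F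

/-- Class of an element modulo the complement subgroup: parity and tracks. -/
noncomputable def cls : KK →+ ZMod 2 × ((l : Fin NB) → ZMod (pr l)) where
  toFun k := (ZMod.castHom (by norm_num : 2 ∣ 4) (ZMod 2) k.1.2, fun l => (k.2 l).1)
  map_zero' := by ext <;> simp
  map_add' a b := by ext <;> simp

/-- The projection on a plane value. -/
noncomputable def valB (l : Fin NB) : KK →+ ZMod (pr l) where
  toFun k := (k.2 l).2
  map_zero' := rfl
  map_add' _ _ := rfl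

/-- The projection on the 2-part. -/
noncomputable def val2 : KK →+ K2 := AddMonoidHom.fst K2 Planes

theorem cls_snd (k : KK) (l : Fin NB) : (cls k).2 l = (k.2 l).1 := rfl

theorem cls_fst (k : KK) :
    (cls k).1 = ZMod.castHom (by norm_num : 2 ∣ 4) (ZMod 2) k.1.2 := rfl

/-- Points at `h` given by a predicate on `K`. -/
noncomputable def atPts (h : ℤ × ℤ) (S : KK → Prop) : Finset GG := by
  classical exact (Finset.univ.filter S).image fun k => (h, k)

theorem mem_atPts {h : ℤ × ℤ} {S : KK → Prop} {g : GG} :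
    g ∈ atPts h S ↔ g.1 = h ∧ S g.2 := by
  classical
  simp only [atPts, Finset.mem_image, Finset.mem_filter, Finset.mem_univ, true_and]
  constructor
  · rintro ⟨k, hk, rfl⟩; exact ⟨rfl, hk⟩
  · rintro ⟨h1, h2⟩; exact ⟨g.2, h2, by rw [← h1]⟩

attribute [irreducible] atPts

/-- The complement tile. -/
noncomputable def tileU : Finset GG := atPts 0 fun k => cls k = 0

theorem mem_tileU {g : GG} : g ∈ tileU ↔ g.1 = 0 ∧ cls g.2 = 0 := mem_atPts

/-- Being a graph over the classes. -/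
def IsGraph (A : Set GG) : Prop := ∀ x q, ∃! a, a ∈ A ∧ a.1 = x ∧ cls a.2 = q

theorem cls_surj (q : ZMod 2 × ((l : Fin NB) → ZMod (pr l))) : ∃ k, cls k = q := by
  refine ⟨((0, (q.1.val : ZMod 4)), fun l => (q.2 l, 0)), Prod.ext ?_ rfl⟩
  rw [cls_fst, map_natCast, ZMod.natCast_zmod_val]

theorem isGraph_iff {A : Set GG} : GTiles tileU A ↔ IsGraph A := by
  have key : ∀ g a : GG, g - a ∈ tileU ↔ a.1 = g.1 ∧ cls a.2 = cls g.2 := fun g a => by
    rw [mem_tileU, Prod.fst_sub, Prod.snd_sub, sub_eq_zero, map_sub, sub_eq_zero]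
    exact ⟨fun h => ⟨h.1.symm, h.2.symm⟩, fun h => ⟨h.1.symm, h.2.symm⟩⟩
  constructor
  · intro h x q
    obtain ⟨k, rfl⟩ := cls_surj q
    obtain ⟨a, ⟨ha, ha'⟩, hu⟩ := h (x, k)
    exact ⟨a, ⟨ha, (key _ _).1 ha'⟩, fun b ⟨hb, hb'⟩ => hu b ⟨hb, (key _ _).2 hb'⟩⟩
  · intro h g
    obtain ⟨a, ⟨ha, ha'⟩, hu⟩ := h g.1 (cls g.2)
    exact ⟨a, ⟨ha, (key _ _).2 ha'⟩, fun b ⟨hb, hb'⟩ => hu b ⟨hb, (key _ _).1 hb'⟩⟩

/-- The equation saying that `π` is invariant under the move `d`. -/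
noncomputable def tileInv {C : Type} [AddCommGroup C] (π : KK →+ C) (d : GG) : Finset GG :=
  atPts 0 (fun k => cls k = 0 ∧ π k ≠ 0) ∪ atPts d.1 (fun k => cls (k - d.2) = 0 ∧ π (k - d.2) = 0)

theorem mem_tileInv {C : Type} [AddCommGroup C] {π : KK →+ C} {d g : GG} :
    g ∈ tileInv π d ↔ (g.1 = 0 ∧ cls g.2 = 0 ∧ π g.2 ≠ 0) ∨
      (g.1 = d.1 ∧ cls (g.2 - d.2) = 0 ∧ π (g.2 - d.2) = 0) := by
  simp only [tileInv, Finset.mem_union, mem_atPts]

/-- `π` is invariant under `d` on `A`. -/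
def InvProp {C : Type} [AddCommGroup C] (A : Set GG) (π : KK →+ C) (d : GG) : Prop :=
  ∀ a ∈ A, ∀ b ∈ A, b.1 = a.1 - d.1 → cls b.2 = cls a.2 - cls d.2 → π b.2 = π a.2

theorem tileInv_iff {C : Type} [AddCommGroup C] {A : Set GG} (hG : IsGraph A) (π : KK →+ C)
    (d : GG) (hd : π d.2 = 0) : GTiles (tileInv π d) A ↔ InvProp A π d := by
  constructor
  · intro h a ha b hb hb1 hb2
    obtain ⟨a', ⟨ha', hmem⟩, -⟩ := h a
    rcases mem_tileInv.1 hmem with ⟨h1, h2, h3⟩ | ⟨h1, h2, h3⟩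
    · exfalso
      rw [Prod.fst_sub, sub_eq_zero] at h1
      rw [Prod.snd_sub, map_sub, sub_eq_zero] at h2
      obtain ⟨c, -, hc⟩ := hG a.1 (cls a.2)
      rw [hc a ⟨ha, rfl, rfl⟩, hc a' ⟨ha', h1.symm, h2.symm⟩] at h3
      simp at h3
    · rw [Prod.fst_sub] at h1
      rw [Prod.snd_sub, map_sub, map_sub, sub_eq_zero, sub_eq_iff_eq_add] at h2
      rw [Prod.snd_sub, map_sub, map_sub, hd, sub_zero, sub_eq_zero] at h3
      obtain ⟨c, -, hc⟩ := hG b.1 (cls b.2)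
      rw [hc b ⟨hb, rfl, rfl⟩, ← hc a' ⟨ha', by rw [hb1, ← h1]; abel, by rw [hb2, h2]; abel⟩]
      exact h3.symm
  · intro h g
    obtain ⟨a, ⟨ha, ha1, ha2⟩, hua⟩ := hG g.1 (cls g.2)
    obtain ⟨b, ⟨hb, hb1, hb2⟩, hub⟩ := hG (g.1 - d.1) (cls g.2 - cls d.2)
    have hab := h a ha b hb (by rw [hb1, ha1]) (by rw [hb2, ha2])
    have e1 : ∀ c, c ∈ A → (g - c).1 = 0 → cls (g - c).2 = 0 → c = a := fun c hc h1 h2 =>
      hua c ⟨hc, by rw [Prod.fst_sub, sub_eq_zero] at h1; exact h1.symm,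
        by rw [Prod.snd_sub, map_sub, sub_eq_zero] at h2; exact h2.symm⟩
    have e2 : ∀ c, c ∈ A → (g - c).1 = d.1 → cls ((g - c).2 - d.2) = 0 → c = b := fun c hc h1 h2 =>
      hub c ⟨hc, by rw [← h1, Prod.fst_sub]; abel, by
        rw [Prod.snd_sub, map_sub, map_sub, sub_eq_zero] at h2
        rw [← h2]; abel⟩
    have hπ : π ((g - b).2 - d.2) = π (g - a).2 := by
      simp only [Prod.snd_sub, map_sub, hd, sub_zero, hab]
    by_cases hz : π (g - a).2 = 0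
    · refine ⟨b, ⟨hb, mem_tileInv.2 (Or.inr ⟨?_, ?_, hπ.trans hz⟩)⟩, ?_⟩
      · rw [Prod.fst_sub, hb1]; abel
      · rw [Prod.snd_sub, map_sub, map_sub, hb2]; abel
      · rintro c ⟨hc, hm⟩
        rcases mem_tileInv.1 hm with ⟨h1, h2, h3⟩ | ⟨h1, h2, -⟩
        · rw [e1 c hc h1 h2] at h3; exact absurd hz h3
        · exact e2 c hc h1 h2
    · refine ⟨a, ⟨ha, mem_tileInv.2 (Or.inl ⟨?_, ?_, hz⟩)⟩, ?_⟩
      · rw [Prod.fst_sub, ha1, sub_self]
      · rw [Prod.snd_sub, map_sub, ha2, sub_self]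
      · rintro c ⟨hc, hm⟩
        rcases mem_tileInv.1 hm with ⟨h1, h2, -⟩ | ⟨h1, h2, h3⟩
        · exact e1 c hc h1 h2
        · rw [e2 c hc h1 h2, hπ] at h3; exact absurd h3 hz

/-- Unit step along the track of a bit. -/
noncomputable def stepT (l : Fin NB) : KK := (0, Pi.single l (1, 0))

/-- The value shift of a bit. -/
noncomputable def stepV (l : Fin NB) (z : ZMod (pr l)) : KK := (0, Pi.single l (0, z))

theorem valB_stepT (l : Fin NB) : valB l (stepT l) = 0 := by simp [valB, stepT]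

theorem valB_stepV (l : Fin NB) (z : ZMod (pr l)) : valB l (stepV l z) = z := by
  simp [valB, stepV]

theorem cls_stepV (l : Fin NB) (z : ZMod (pr l)) : cls (stepV l z) = 0 := by
  refine Prod.ext ?_ ?_
  · rw [cls_fst]; simp [stepV]
  · funext m
    rw [cls_snd]
    rcases eq_or_ne m l with rfl | h
    · simp [stepV]
    · simp [stepV, h]

/-- The equation forcing slopes `±1` for the bit `l`. -/
noncomputable def tileSwap (l : Fin NB) : Finset GG :=
  atPts 0 (fun k => cls k = 0 ∧ valB l k ≠ 1 ∧ valB l k ≠ -1) ∪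
    atPts 0 (fun k => cls (k - stepT l) = 0 ∧ valB l (k - stepT l) = 0) ∪
    atPts 0 (fun k => cls (k + stepT l) = 0 ∧ valB l (k + stepT l) = 0)

theorem mem_tileSwap {l : Fin NB} {g : GG} : g ∈ tileSwap l ↔
    g.1 = 0 ∧ ((cls g.2 = 0 ∧ valB l g.2 ≠ 1 ∧ valB l g.2 ≠ -1) ∨
      (cls (g.2 - stepT l) = 0 ∧ valB l (g.2 - stepT l) = 0) ∨
      (cls (g.2 + stepT l) = 0 ∧ valB l (g.2 + stepT l) = 0)) := by
  simp only [tileSwap, Finset.mem_union, mem_atPts]
  tauto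

/-- Successor and predecessor differ by `+1` and `-1` in some order. -/
def SwapProp (A : Set GG) (l : Fin NB) : Prop :=
  ∀ a ∈ A, ∀ b ∈ A, ∀ c ∈ A, b.1 = a.1 → cls b.2 = cls a.2 + cls (stepT l) → c.1 = a.1 →
    cls c.2 = cls a.2 - cls (stepT l) →
    (valB l b.2 = valB l a.2 + 1 ∧ valB l c.2 = valB l a.2 - 1) ∨
      (valB l b.2 = valB l a.2 - 1 ∧ valB l c.2 = valB l a.2 + 1)

theorem one_ne_neg_one (l : Fin NB) : (1 : ZMod (pr l)) ≠ -1 := by
  have : Fact (2 < pr l) := ⟨by have := pr_ge l; omega⟩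
  exact fun h => ZMod.neg_one_ne_one h.symm

theorem cls_stepT_ne (l : Fin NB) : cls (stepT l) ≠ 0 ∧ cls (stepT l) + cls (stepT l) ≠ 0 := by
  have : Fact (2 < pr l) := ⟨by have := pr_ge l; omega⟩
  constructor <;> intro h <;> have := congrFun (congrArg Prod.snd h) l <;>
    simp only [Prod.snd_add, Pi.add_apply, cls_snd, stepT, Pi.single_eq_same, Prod.snd_zero,
      Pi.zero_apply] at this
  · exact one_ne_zero this
  · exact one_ne_neg_one l (eq_neg_of_add_eq_zero_left this)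

theorem tileSwap_iff {A : Set GG} (hG : IsGraph A) (l : Fin NB) :
    GTiles (tileSwap l) A ↔ SwapProp A l := by
  obtain ⟨hT1, hT2⟩ := cls_stepT_ne l
  have hcand : ∀ g c : GG, c ∈ A → g - c ∈ tileSwap l → c.1 = g.1 ∧
      ((cls c.2 = cls g.2 ∧ valB l g.2 ≠ valB l c.2 + 1 ∧ valB l g.2 ≠ valB l c.2 - 1) ∨
       (cls c.2 = cls g.2 - cls (stepT l) ∧ valB l c.2 = valB l g.2) ∨
       (cls c.2 = cls g.2 + cls (stepT l) ∧ valB l c.2 = valB l g.2)) := by
    intro g c _ h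
    obtain ⟨h1, h⟩ := mem_tileSwap.1 h
    rw [Prod.fst_sub, sub_eq_zero] at h1
    refine ⟨h1.symm, ?_⟩
    simp only [Prod.snd_sub, map_sub, map_add, valB_stepT, sub_zero, add_zero] at h
    rcases h with ⟨h2, h3, h4⟩ | ⟨h2, h3⟩ | ⟨h2, h3⟩
    · refine Or.inl ⟨(sub_eq_zero.1 h2).symm, fun e => h3 ?_, fun e => h4 ?_⟩
      · rw [e]; abel
      · rw [e]; abel
    · refine Or.inr (Or.inl ⟨?_, (sub_eq_zero.1 h3).symm⟩)
      rw [sub_sub, sub_eq_zero] at h2; rw [h2]; abel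
    · refine Or.inr (Or.inr ⟨?_, (sub_eq_zero.1 h3).symm⟩)
      rw [sub_add_eq_add_sub, sub_eq_zero] at h2; exact h2.symm
  have hback : ∀ g c : GG, c.1 = g.1 →
      ((cls c.2 = cls g.2 ∧ valB l g.2 ≠ valB l c.2 + 1 ∧ valB l g.2 ≠ valB l c.2 - 1) ∨
       (cls c.2 = cls g.2 - cls (stepT l) ∧ valB l c.2 = valB l g.2) ∨
       (cls c.2 = cls g.2 + cls (stepT l) ∧ valB l c.2 = valB l g.2)) →
      g - c ∈ tileSwap l := by
    intro g c h1 h
    refine mem_tileSwap.2 ⟨by rw [Prod.fst_sub, h1, sub_self], ?_⟩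
    simp only [Prod.snd_sub, map_sub, map_add, valB_stepT, sub_zero, add_zero]
    rcases h with ⟨h2, h3, h4⟩ | ⟨h2, h3⟩ | ⟨h2, h3⟩
    · refine Or.inl ⟨by rw [h2, sub_self], fun e => h3 ?_, fun e => h4 ?_⟩
      · rw [← e]; abel
      · rw [sub_eq_iff_eq_add] at e; rw [e]; abel
    · exact Or.inr (Or.inl ⟨by rw [h2]; abel, by rw [h3, sub_self]⟩)
    · exact Or.inr (Or.inr ⟨by rw [h2]; abel, by rw [h3, sub_self]⟩)
  constructor
  · intro h a ha b hb c hc hb1 hb2 hc1 hc2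
    have hget : ∀ z : ZMod (pr l), (z = 1 ∨ z = -1) →
        valB l b.2 = valB l a.2 + z ∨ valB l c.2 = valB l a.2 + z := by
      intro z hz
      obtain ⟨d, ⟨hd, hm⟩, -⟩ := h (a.1, a.2 + stepV l z)
      obtain ⟨h1, h2⟩ := hcand _ d hd hm
      simp only [map_add, valB_stepV, cls_stepV, add_zero] at h1 h2
      rcases h2 with ⟨h2, h3, h4⟩ | ⟨h2, h3⟩ | ⟨h2, h3⟩
      · exfalso
        obtain ⟨e, -, he⟩ := hG a.1 (cls a.2)
        rw [he d ⟨hd, h1, h2⟩, ← he a ⟨ha, rfl, rfl⟩] at h3 h4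
        rcases hz with rfl | rfl
        · exact h3 rfl
        · exact h4 (by abel)
      · obtain ⟨e, -, he⟩ := hG c.1 (cls c.2)
        rw [he d ⟨hd, h1.trans hc1.symm, h2.trans hc2.symm⟩, ← he c ⟨hc, rfl, rfl⟩] at h3
        exact Or.inr h3
      · obtain ⟨e, -, he⟩ := hG b.1 (cls b.2)
        rw [he d ⟨hd, h1.trans hb1.symm, h2.trans hb2.symm⟩, ← he b ⟨hb, rfl, rfl⟩] at h3
        exact Or.inl h3
    have hne := one_ne_neg_one l
    rcases hget 1 (Or.inl rfl) with e | e <;> rcases hget (-1) (Or.inr rfl) with e' | e'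
    · exact absurd (add_left_cancel (e.symm.trans e')) hne
    · exact Or.inl ⟨e, by rw [e']; abel⟩
    · exact Or.inr ⟨by rw [e']; abel, e⟩
    · exact absurd (add_left_cancel (e.symm.trans e')) hne
  · intro h g
    obtain ⟨a, ⟨ha, ha1, ha2⟩, hua⟩ := hG g.1 (cls g.2)
    obtain ⟨b, ⟨hb, hb1, hb2⟩, hub⟩ := hG g.1 (cls g.2 + cls (stepT l))
    obtain ⟨c, ⟨hc, hc1, hc2⟩, huc⟩ := hG g.1 (cls g.2 - cls (stepT l))
    have hs := h a ha b hb c hc (by rw [hb1, ha1]) (by rw [hb2, ha2]) (by rw [hc1, ha1])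
      (by rw [hc2, ha2])
    have huniq : ∀ d, d ∈ A ∧ g - d ∈ tileSwap l →
        (d = a ∧ valB l g.2 ≠ valB l a.2 + 1 ∧ valB l g.2 ≠ valB l a.2 - 1) ∨
        (d = c ∧ valB l c.2 = valB l g.2) ∨ (d = b ∧ valB l b.2 = valB l g.2) := by
      rintro d ⟨hd, hm⟩
      obtain ⟨h1, h2⟩ := hcand g d hd hm
      rcases h2 with ⟨h2, h3⟩ | ⟨h2, h3⟩ | ⟨h2, h3⟩
      · obtain rfl := hua d ⟨hd, h1, h2⟩; exact Or.inl ⟨rfl, h3⟩
      · obtain rfl := huc d ⟨hd, h1, h2⟩; exact Or.inr (Or.inl ⟨rfl, h3⟩)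
      · obtain rfl := hub d ⟨hd, h1, h2⟩; exact Or.inr (Or.inr ⟨rfl, h3⟩)
    have hne : valB l b.2 ≠ valB l c.2 := by
      have := one_ne_neg_one l
      rcases hs with ⟨e, e'⟩ | ⟨e, e'⟩ <;> rw [e, e', sub_eq_add_neg] <;> intro h'
      · exact this (add_left_cancel h')
      · exact this (add_left_cancel h').symm
    by_cases hgb : valB l b.2 = valB l g.2
    · refine ⟨b, ⟨hb, hback g b hb1 (Or.inr (Or.inr ⟨hb2, hgb⟩))⟩, fun d hd => ?_⟩
      rcases huniq d hd with ⟨-, h3, h4⟩ | ⟨-, h3⟩ | ⟨h3, -⟩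
      · rcases hs with ⟨e, -⟩ | ⟨e, -⟩
        · exact absurd (hgb.symm.trans e) h3
        · exact absurd (hgb.symm.trans e) h4
      · exact absurd (hgb.trans h3.symm) hne
      · exact h3
    by_cases hgc : valB l c.2 = valB l g.2
    · refine ⟨c, ⟨hc, hback g c hc1 (Or.inr (Or.inl ⟨hc2, hgc⟩))⟩, fun d hd => ?_⟩
      rcases huniq d hd with ⟨-, h3, h4⟩ | ⟨h3, -⟩ | ⟨-, h3⟩
      · rcases hs with ⟨-, e⟩ | ⟨-, e⟩
        · exact absurd (hgc.symm.trans e) h4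
        · exact absurd (hgc.symm.trans e) h3
      · exact h3
      · exact absurd h3 hgb
    refine ⟨a, ⟨ha, hback g a ha1 (Or.inl ⟨ha2, ?_, ?_⟩)⟩, fun d hd => ?_⟩
    · rcases hs with ⟨e, -⟩ | ⟨-, e⟩ <;> intro h'
      · exact hgb (e.trans h'.symm)
      · exact hgc (e.trans h'.symm)
    · rcases hs with ⟨-, e⟩ | ⟨e, -⟩ <;> intro h'
      · exact hgc (e.trans h'.symm)
      · exact hgb (e.trans h'.symm)
    · rcases huniq d hd with ⟨h3, -⟩ | ⟨-, h3⟩ | ⟨-, h3⟩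
      · exact h3
      · exact absurd h3 hgc
      · exact absurd h3 hgb

end Vale.Agent.P043.D4
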