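import Vale.Agent.P043.D4.Stack
import Vale.Agent.P043.D4.Gadget

/-!
# From tiling equations in `ℤ² × K` to tiling equations in `ℤ⁴`

`K` has torsion rank two by the Chinese remainder theorem, so `ℤ² × K` is a quotient of `ℤ⁴`.
-/

namespace Vale.Agent.P043.D4

open Finset

/-- The quotient map `ℤ⁴ → ℤ² × K`. -/
noncomputable def quo : (Fin 4 → ℤ) →+ GG where
  toFun z := ((z 0, z 1), (((z 2 : ℤ) : ZMod 4), ((z 3 : ℤ) : ZMod 4)),
    fun l => (((z 3 : ℤ) : ZMod (pr l)), ((z 2 : ℤ) : ZMod (pr l))))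
  map_zero' := by ext <;> simp
  map_add' a b := by ext <;> simp

theorem modulus_exists {ι : Type} [Fintype ι] (p : ι → ℕ) : ∃ M : ℕ, M = 4 * ∏ l, p l := ⟨_, rfl⟩

/-- The modulus of the two torsion coordinates. -/
noncomputable def modM : ℕ := (modulus_exists pr).choose

theorem modM_eq : modM = 4 * ∏ l, pr l := (modulus_exists pr).choose_spec

theorem dvd_modulus {ι : Type} [Fintype ι] (p : ι → ℕ) {M N : ℕ} (hM : M = 4 * ∏ l, p l)
    (hc : ∀ l, Nat.Coprime 4 (p l)) (hpc : ∀ l m, l ≠ m → Nat.Coprime (p l) (p m))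
    (h4 : 4 ∣ N) (hp : ∀ l, p l ∣ N) : M ∣ N := by
  subst hM
  exact Nat.Coprime.mul_dvd_of_dvd_of_dvd (Nat.Coprime.prod_right fun l _ => hc l) h4
    (Fintype.prod_dvd_of_isRelPrime (fun l m h => Nat.coprime_iff_isRelPrime.1 (hpc l m h)) hp)

theorem four_dvd_modulus {ι : Type} [Fintype ι] (p : ι → ℕ) {M : ℕ} (hM : M = 4 * ∏ l, p l) :
    4 ∣ M ∧ ∀ l, p l ∣ M := by
  subst hM
  exact ⟨dvd_mul_right 4 _, fun l => dvd_mul_of_dvd_right (dvd_prod_of_mem _ (mem_univ l)) _⟩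

theorem coprime_four (l : Fin NB) : Nat.Coprime 4 (pr l) := by
  rw [show (4 : ℕ) = 2 ^ 2 by norm_num]
  refine Nat.Coprime.pow_left 2 ((Nat.coprime_primes Nat.prime_two (pr_prime l)).2 ?_)
  have := pr_ge l
  omega

theorem coprime_pr {l m : Fin NB} (h : l ≠ m) : Nat.Coprime (pr l) (pr m) :=
  (Nat.coprime_primes (pr_prime l) (pr_prime m)).2 fun e => h (pr_inj e)

theorem crt_exists (u : ZMod 4) (f : (l : Fin NB) → ZMod (pr l)) :
    ∃ N : ℤ, (N : ZMod 4) = u ∧ ∀ l, (N : ZMod (pr l)) = f l := by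
  classical
  let m : Option (Fin NB) → ℕ := fun o => o.elim 4 pr
  let a : Option (Fin NB) → ℕ := fun o => Option.rec u.val (fun l => (f l).val) o
  have hm : ∀ i ∈ (univ : Finset (Option (Fin NB))), m i ≠ 0 := by
    rintro (_ | l) -
    · simp [m]
    · exact (pr_prime l).ne_zero
  have hp : Set.Pairwise ↑(univ : Finset (Option (Fin NB))) (Function.onFun Nat.Coprime m) := by
    rintro (_ | l) - (_ | l') - h
    · exact absurd rfl h
    · exact coprime_four l'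
    · exact (coprime_four l).symm
    · exact coprime_pr fun e => h (by rw [e])
  obtain ⟨N, hN⟩ := Nat.chineseRemainderOfFinset a m univ hm hp
  refine ⟨N, ?_, fun l => ?_⟩
  · have := (ZMod.natCast_eq_natCast_iff N u.val 4).2 (hN none (mem_univ _))
    rw [ZMod.natCast_zmod_val] at this
    exact_mod_cast this
  · have := (ZMod.natCast_eq_natCast_iff N (f l).val (pr l)).2 (hN (some l) (mem_univ _))
    rw [ZMod.natCast_zmod_val] at this
    exact_mod_cast this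

theorem quo_surj : Function.Surjective quo := by
  rintro ⟨⟨x₁, x₂⟩, ⟨u, w⟩, P⟩
  obtain ⟨N₂, hu, hb⟩ := crt_exists u fun l => (P l).2
  obtain ⟨N₃, hw, ha⟩ := crt_exists w fun l => (P l).1
  refine ⟨![x₁, x₂, N₂, N₃], ?_⟩
  show ((x₁, x₂), ((N₂ : ZMod 4), (N₃ : ZMod 4)),
    fun l => ((N₃ : ZMod (pr l)), (N₂ : ZMod (pr l)))) = _
  rw [hu, hw]
  congr 2
  funext l
  rw [ha l, hb l]

theorem modM_dvd {N : ℤ} (h4 : (N : ZMod 4) = 0) (hp : ∀ l, (N : ZMod (pr l)) = 0) :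
    (modM : ℤ) ∣ N := by
  rw [Int.natCast_dvd]
  have h4' : 4 ∣ N.natAbs := Int.natCast_dvd.1 ((ZMod.intCast_zmod_eq_zero_iff_dvd N 4).1 h4)
  have hp' : ∀ l, pr l ∣ N.natAbs := fun l =>
    Int.natCast_dvd.1 ((ZMod.intCast_zmod_eq_zero_iff_dvd N (pr l)).1 (hp l))
  exact dvd_modulus pr modM_eq coprime_four (fun _ _ h => coprime_pr h) h4' hp'

/-- The four translations generating the kernel. -/
noncomputable def lam : Fin 4 → Fin 4 → ℤ :=
  ![Pi.single 2 (modM : ℤ), Pi.single 2 (-(modM : ℤ)), Pi.single 3 (modM : ℤ),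
    Pi.single 3 (-(modM : ℤ))]

theorem modM_cast4 : ((modM : ℤ) : ZMod 4) = 0 := by
  rw [Int.cast_natCast, ZMod.natCast_eq_zero_iff]
  exact (four_dvd_modulus pr modM_eq).1

theorem modM_castp (l : Fin NB) : ((modM : ℤ) : ZMod (pr l)) = 0 := by
  rw [Int.cast_natCast, ZMod.natCast_eq_zero_iff]
  exact (four_dvd_modulus pr modM_eq).2 l

theorem quo_single {N : ℤ} (h4 : (N : ZMod 4) = 0) (hp : ∀ l, (N : ZMod (pr l)) = 0) :
    quo (Pi.single 2 N) = 0 ∧ quo (Pi.single 3 N) = 0 := by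
  constructor <;>
    refine Prod.ext (Prod.ext ?_ ?_) (Prod.ext (Prod.ext ?_ ?_) (funext fun l => Prod.ext ?_ ?_)) <;>
    simp [quo, h4, hp]

theorem quo_lam (i : Fin 4) : quo (lam i) = 0 := by
  have hn4 : ((-(modM : ℤ) : ℤ) : ZMod 4) = 0 := by rw [Int.cast_neg, modM_cast4, neg_zero]
  have hnp : ∀ l, ((-(modM : ℤ) : ℤ) : ZMod (pr l)) = 0 := fun l => by
    rw [Int.cast_neg, modM_castp, neg_zero]
  fin_cases i
  · exact (quo_single modM_cast4 modM_castp).1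
  · exact (quo_single hn4 hnp).1
  · exact (quo_single modM_cast4 modM_castp).2
  · exact (quo_single hn4 hnp).2

theorem ker_closed {A : Set (Fin 4 → ℤ)} (hA : ∀ i, ∀ a ∈ A, a - lam i ∈ A)
    {z : Fin 4 → ℤ} (hz : quo z = 0) : ∀ a ∈ A, a + z ∈ A := by
  have h0 : z 0 = 0 := congrArg (fun g : GG => g.1.1) hz
  have h1 : z 1 = 0 := congrArg (fun g : GG => g.1.2) hz
  have h2 : ((z 2 : ℤ) : ZMod 4) = 0 := congrArg (fun g : GG => g.2.1.1) hz
  have h3 : ((z 3 : ℤ) : ZMod 4) = 0 := congrArg (fun g : GG => g.2.1.2) hz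
  have h4 : ∀ l, ((z 3 : ℤ) : ZMod (pr l)) = 0 ∧ ((z 2 : ℤ) : ZMod (pr l)) = 0 := fun l =>
    ⟨congrArg (fun g : GG => (g.2.2 l).1) hz, congrArg (fun g : GG => (g.2.2 l).2) hz⟩
  obtain ⟨m₂, hm₂⟩ := modM_dvd h2 fun l => (h4 l).2
  obtain ⟨m₃, hm₃⟩ := modM_dvd h3 fun l => (h4 l).1
  have key : ∀ (j : Fin 4) (i i' : Fin 4), lam i = Pi.single j (modM : ℤ) →
      lam i' = Pi.single j (-(modM : ℤ)) → ∀ m : ℤ, ∀ a ∈ A,
        a + Pi.single j ((modM : ℤ) * m) ∈ A := by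
    intro j i i' hi hi' m
    induction m with
    | zero => intro a ha; simpa using ha
    | succ k hk =>
      intro a ha
      have := hA i' _ (hk a ha)
      rwa [hi', Pi.single_neg, sub_neg_eq_add, add_assoc, ← Pi.single_add,
        show (modM : ℤ) * k + modM = modM * (k + 1) by ring] at this
    | pred k hk =>
      intro a ha
      have := hA i _ (hk a ha)
      rwa [hi, add_sub_assoc, ← Pi.single_sub,
        show (modM : ℤ) * -k - modM = modM * (-k - 1) by ring] at this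
  intro a ha
  have := key 3 2 3 rfl rfl m₃ _ (key 2 0 1 rfl rfl m₂ a ha)
  have e : z = Pi.single 2 ((modM : ℤ) * m₂) + Pi.single 3 ((modM : ℤ) * m₃) := by
    funext i
    fin_cases i <;> simp [h0, h1, hm₂, hm₃]
  rwa [e, ← add_assoc]

/-- A section of the quotient map. -/
noncomputable def sec : GG → Fin 4 → ℤ := Function.surjInv quo_surj

theorem quo_sec (g : GG) : quo (sec g) = g := Function.surjInv_eq quo_surj g

/-- Lift of a tile. -/
noncomputable def liftT (F : Finset GG) : Finset (Fin 4 → ℤ) := by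
  classical exact F.image sec

theorem mem_liftT {F : Finset GG} {z : Fin 4 → ℤ} :
    z ∈ liftT F ↔ ∃ f ∈ F, sec f = z := by
  classical simp [liftT]

/-- Kernel-invariance variant of a lifted tile. -/
noncomputable def shiftT (Φ : Finset (Fin 4 → ℤ)) (φ : Fin 4 → ℤ) (i : Fin 4) :
    Finset (Fin 4 → ℤ) := by
  classical exact insert (φ + lam i) (Φ.erase φ)

theorem mem_shiftT {Φ : Finset (Fin 4 → ℤ)} {φ z : Fin 4 → ℤ} {i : Fin 4} :
    z ∈ shiftT Φ φ i ↔ z = φ + lam i ∨ (z ≠ φ ∧ z ∈ Φ) := by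
  classical simp [shiftT]

theorem shift_closed {Φ : Finset (Fin 4 → ℤ)} {φ : Fin 4 → ℤ} (hφ : φ ∈ Φ) {i : Fin 4}
    {A : Set (Fin 4 → ℤ)} (h1 : Tiles Φ A) (h2 : Tiles (shiftT Φ φ i) A) :
    ∀ a ∈ A, a - lam i ∈ A := by
  intro a ha
  obtain ⟨b, ⟨hb, hbF⟩, -⟩ := h2 (a + φ)
  rcases mem_shiftT.1 hbF with e | ⟨hne, hmem⟩
  · have : b = a - lam i := by
      rw [sub_eq_iff_eq_add] at e
      rw [eq_sub_iff_add_eq]
      exact add_left_cancel (a := φ) (by rw [add_comm φ a, e]; abel)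
    rwa [← this]
  · exact absurd (h1.unique hb ha hmem hφ (by abel)).2 hne

/-- Pullback of a set. -/
def pull (AG : Set GG) : Set (Fin 4 → ℤ) := {z | quo z ∈ AG}

theorem pull_tiles {F : Finset GG} {AG : Set GG} (h : GTiles F AG) : Tiles (liftT F) (pull AG) := by
  intro z
  obtain ⟨a, ⟨ha, haF⟩, hu⟩ := h (quo z)
  refine ⟨z - sec (quo z - a), ⟨?_, mem_liftT.2 ⟨_, haF, (sub_sub_cancel _ _).symm⟩⟩, ?_⟩
  · show quo (z - sec (quo z - a)) ∈ AG
    rw [map_sub, quo_sec, sub_sub_cancel]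
    exact ha
  · rintro b ⟨hb, hbF⟩
    obtain ⟨f, hf, e⟩ := mem_liftT.1 hbF
    have hq : quo z - quo b = f := by rw [← map_sub, ← e, quo_sec]
    have : quo b = a := hu _ ⟨hb, by rw [hq]; exact hf⟩
    rw [← this, hq, e, sub_sub_cancel]

theorem sec_inj : Function.Injective sec := Function.injective_surjInv quo_surj

theorem pull_shift {F : Finset GG} {AG : Set GG} (h : GTiles F AG) {f₀ : GG} (hf₀ : f₀ ∈ F)
    (i : Fin 4) : Tiles (shiftT (liftT F) (sec f₀) i) (pull AG) := by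
  have hinv : ∀ z, z ∈ pull AG ↔ z - lam i ∈ pull AG := fun z => by
    show quo z ∈ AG ↔ quo (z - lam i) ∈ AG
    rw [map_sub, quo_lam, sub_zero]
  intro z
  obtain ⟨a, ⟨ha, haF⟩, hu⟩ := pull_tiles h z
  have hadj : ∀ b, b ∈ pull AG → z - b = sec f₀ + lam i → a = b + lam i := by
    intro b hb e
    refine (hu _ ⟨(hinv _).2 (by simpa using hb), ?_⟩).symm
    rw [← sub_sub, e, add_sub_cancel_right]
    exact mem_liftT.2 ⟨f₀, hf₀, rfl⟩
  by_cases hc : z - a = sec f₀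
  · refine ⟨a - lam i, ⟨(hinv a).1 ha, mem_shiftT.2 (Or.inl ?_)⟩, ?_⟩
    · rw [← hc]; abel
    · rintro b ⟨hb, hbF⟩
      rcases mem_shiftT.1 hbF with e | ⟨hne, hmem⟩
      · rw [hadj b hb e, add_sub_cancel_right]
      · rw [hu b ⟨hb, hmem⟩] at hne; exact absurd hc hne
  · refine ⟨a, ⟨ha, mem_shiftT.2 (Or.inr ⟨hc, haF⟩)⟩, ?_⟩
    rintro b ⟨hb, hbF⟩
    rcases mem_shiftT.1 hbF with e | ⟨-, hmem⟩
    · exfalso
      apply hc
      rw [hadj b hb e, ← sub_sub, e, add_sub_cancel_right]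
    · exact hu b ⟨hb, hmem⟩

theorem push_tiles {F : Finset GG} {A : Set (Fin 4 → ℤ)} (h : Tiles (liftT F) A)
    (hinv : ∀ w, quo w = 0 → ∀ a ∈ A, a + w ∈ A) : GTiles F (quo '' A) := by
  intro g
  obtain ⟨a, ⟨ha, haF⟩, hu⟩ := h (sec g)
  obtain ⟨f, hf, e⟩ := mem_liftT.1 haF
  refine ⟨quo a, ⟨⟨a, ha, rfl⟩, ?_⟩, ?_⟩
  · have : g - quo a = f := by rw [← quo_sec f, e, map_sub, quo_sec]
    rw [this]; exact hf
  · rintro _ ⟨⟨b, hb, rfl⟩, hbF⟩
    have hker : quo (sec g - b - sec (g - quo b)) = 0 := by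
      rw [map_sub, map_sub, quo_sec, quo_sec, sub_self]
    have := hu (b + (sec g - b - sec (g - quo b))) ⟨hinv _ hker b hb,
      mem_liftT.2 ⟨_, hbF, by abel⟩⟩
    rw [← this, map_add, hker, add_zero]

theorem zero_mem_tileU : (0 : GG) ∈ tileU := mem_tileU.2 ⟨rfl, map_zero cls⟩

/-- A system on `ℤ² × K` containing the complement tile and without periodic solution gives an
aperiodic tile of `ℤ⁴`. -/
theorem lift_system {ι : Type} [Fintype ι] (Fs : ι → Finset GG) (AG : Set GG)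
    (hU : GTiles tileU AG) (hFs : ∀ i, GTiles (Fs i) AG)
    (hno : ∀ (B : Set GG) (P : ℕ), 0 < P → (∀ g ∈ B, ∀ h : ℤ × ℤ, g + ((P : ℤ) • h, 0) ∈ B) →
      GTiles tileU B → (∀ i, GTiles (Fs i) B) → False) :
    ∃ F : Finset (Fin 4 → ℤ), F.Nonempty ∧ (∃ A, Tiles F A) ∧
      ∀ A P, 0 < P → PerP P A → Tiles F A → False := by
  let e := (Fintype.equivFin (ι ⊕ Fin 4)).symm
  let eqs : ι ⊕ Fin 4 → Finset (Fin 4 → ℤ) :=
    Sum.elim (fun i => liftT (Fs i)) (fun i => shiftT (liftT tileU) (sec 0) i)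
  refine stack (liftT tileU) ⟨sec 0, mem_liftT.2 ⟨0, zero_mem_tileU, rfl⟩⟩
    (fun j => eqs (e j)) ⟨pull AG, pull_tiles hU, fun j => ?_⟩ ?_
  · rcases e j with i | i
    · exact pull_tiles (hFs i)
    · exact pull_shift hU zero_mem_tileU i
  · intro A P hP hper h0 hall
    have hall' : ∀ o, Tiles (eqs o) A := fun o => by simpa [e] using hall (e.symm o)
    have hinv : ∀ w, quo w = 0 → ∀ a ∈ A, a + w ∈ A := fun w hw =>
      ker_closed (fun i => shift_closed (mem_liftT.2 ⟨0, zero_mem_tileU, rfl⟩) h0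
        (hall' (Sum.inr i))) hw
    refine hno (quo '' A) P hP ?_ (push_tiles h0 hinv) fun i => push_tiles (hall' (Sum.inl i)) hinv
    rintro _ ⟨a, ha, rfl⟩ h
    refine ⟨a + ((P : ℤ) • ![h.1, h.2, 0, 0]), hper a ha _, ?_⟩
    rw [map_add]
    congr 1
    refine Prod.ext (Prod.ext ?_ ?_) (Prod.ext (Prod.ext ?_ ?_) (funext fun l => Prod.ext ?_ ?_)) <;>
      simp [quo]

end Vale.Agent.P043.D4
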