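import Vale.Agent.P043.D4.Gadget

/-!
# Solutions of the basic equations, and the marker, link and clause equations
-/

namespace Vale.Agent.P043.D4

open Function Fin.NatCast

/-- Data describing a set: 2-part offset and step, and intercept and slope sign of each bit. -/
structure Dat where
  c : ℤ × ℤ → K2
  v : ℤ × ℤ → K2
  base : ℤ × ℤ → (l : Fin NB) → ZMod (pr l)
  s : ℤ × ℤ → Fin NB → Bool
  hc : ∀ x, ZMod.castHom (by norm_num : 2 ∣ 4) (ZMod 2) (c x).2 = 0
  hv : ∀ x, ZMod.castHom (by norm_num : 2 ∣ 4) (ZMod 2) (v x).2 = 1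

/-- Parameter of a point over one position: parity and tracks. -/
abbrev Par := Fin 2 × ((l : Fin NB) → ZMod (pr l))

/-- Centred shape. -/
noncomputable def sh (v : K2) (s : Fin NB → Bool) (j : Par) : KK :=
  ((if j.1 = 0 then 0 else v), fun l => (j.2 l, sgn (s l) * j.2 l))

/-- Translation of the shape at a position. -/
noncomputable def Dat.off (D : Dat) (x : ℤ × ℤ) : KK := (D.c x, fun l => (0, D.base x l))

/-- The point of the set over `x` with parameter `j`. -/
noncomputable def Dat.el (D : Dat) (x : ℤ × ℤ) (j : Par) : KK := D.off x + sh (D.v x) (D.s x) j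

/-- The set described by the data. -/
noncomputable def Dat.set (D : Dat) : Set GG := {g | ∃ j, D.el g.1 j = g.2}

theorem Dat.cls_el (D : Dat) (x : ℤ × ℤ) (j : Par) :
    cls (D.el x j) = ((j.1.val : ZMod 2), j.2) := by
  refine Prod.ext ?_ ?_
  · rw [cls_fst, Dat.el, Dat.off, sh]
    simp only [Prod.fst_add, Prod.snd_add, map_add, D.hc x, zero_add]
    obtain ⟨i, -⟩ := j
    fin_cases i <;> simp [D.hv x]
  · funext l
    rw [cls_snd, Dat.el, Dat.off, sh]
    simp

theorem par_val_inj : Function.Injective fun i : Fin 2 => (i.val : ZMod 2) := by decide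

theorem Dat.el_inj (D : Dat) (x : ℤ × ℤ) : Injective (D.el x) := by
  intro j j' h
  have := congrArg cls h
  rw [D.cls_el, D.cls_el, Prod.mk.injEq] at this
  exact Prod.ext (par_val_inj this.1) this.2

theorem Dat.mem_el (D : Dat) (x : ℤ × ℤ) (j : Par) : (x, D.el x j) ∈ D.set := ⟨j, rfl⟩

theorem Dat.el_two (D : Dat) (x : ℤ × ℤ) (j : Par) :
    (D.el x j).1 = D.c x + (if j.1 = 0 then 0 else D.v x) := rfl

theorem Dat.el_plane (D : Dat) (x : ℤ × ℤ) (j : Par) (l : Fin NB) :
    (D.el x j).2 l = (j.2 l, D.base x l + sgn (D.s x l) * j.2 l) := by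
  simp [Dat.el, Dat.off, sh]

theorem Dat.valB_el (D : Dat) (x : ℤ × ℤ) (j : Par) (l : Fin NB) :
    valB l (D.el x j) = D.base x l + sgn (D.s x l) * j.2 l :=
  congrArg Prod.snd (D.el_plane x j l)

theorem Dat.isGraph (D : Dat) : IsGraph D.set := by
  intro x q
  have hfin : ((⟨q.1.val, ZMod.val_lt q.1⟩ : Fin 2).val : ZMod 2) = q.1 := ZMod.natCast_zmod_val q.1
  refine ⟨(x, D.el x (⟨q.1.val, ZMod.val_lt q.1⟩, q.2)), ⟨D.mem_el _ _, rfl, ?_⟩, ?_⟩
  · rw [D.cls_el, hfin]
  · rintro ⟨y, k⟩ ⟨⟨j, hj⟩, rfl, hq⟩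
    simp only at hj hq ⊢
    subst hj
    rw [D.cls_el] at hq
    rw [← hq]
    congr 2
    exact Prod.ext (Fin.ext (by
      obtain ⟨i, T⟩ := j
      simp only [ZMod.val_natCast]
      omega)) rfl

/-- The elementary invariance and slope equations. -/
def Basic (A : Set GG) : Prop :=
  IsGraph A ∧ (∀ (l : Fin NB) (k : KK), k.2 l = 0 → InvProp A (valB l) (0, k)) ∧
    (∀ k : KK, k.1 = 0 → InvProp A val2 (0, k)) ∧ ∀ l, SwapProp A l

theorem Dat.basic (D : Dat) : Basic D.set := by
  refine ⟨D.isGraph, ?_, ?_, ?_⟩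
  · rintro l k hk ⟨x, a⟩ ⟨j, hj⟩ ⟨y, b⟩ ⟨j', hj'⟩ hy hq
    simp only at hj hj'
    subst hj hj'
    simp only [sub_zero] at hy
    subst hy
    simp only [D.cls_el, Prod.ext_iff] at hq
    have hl := congrFun hq.2 l
    rw [Prod.snd_sub, Pi.sub_apply, cls_snd, hk] at hl
    simp only [Prod.fst_zero, sub_zero] at hl
    show valB l (D.el y j') = valB l (D.el y j)
    rw [D.valB_el, D.valB_el, hl]
  · rintro k hk ⟨x, a⟩ ⟨j, hj⟩ ⟨y, b⟩ ⟨j', hj'⟩ hy hq
    simp only at hj hj'
    subst hj hj'
    simp only [sub_zero] at hy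
    subst hy
    simp only [D.cls_el, Prod.ext_iff] at hq
    have h1 := hq.1
    rw [Prod.fst_sub, cls_fst, hk] at h1
    simp only [Prod.snd_zero, map_zero, sub_zero] at h1
    show (D.el y j').1 = (D.el y j).1
    rw [D.el_two, D.el_two, par_val_inj h1]
  · rintro l ⟨x, a⟩ ⟨j, hj⟩ ⟨y, b⟩ ⟨j', hj'⟩ ⟨z, c⟩ ⟨j'', hj''⟩ hy hb hz hc
    simp only at hj hj' hj''
    subst hj hj' hj''
    simp only at hy hz
    subst hy hz
    simp only [D.cls_el, Prod.ext_iff] at hb hc
    have h1 := congrFun hb.2 l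
    have h2 := congrFun hc.2 l
    rw [Prod.snd_add, Pi.add_apply, cls_snd] at h1
    rw [Prod.snd_sub, Pi.sub_apply, cls_snd] at h2
    simp only [stepT, Pi.single_eq_same] at h1 h2
    simp only [D.valB_el]
    rw [h1, h2]
    cases D.s z l
    · right; simp [sgn]; constructor <;> ring
    · left; simp [sgn]; constructor <;> ring

theorem exists_dat {A : Set GG} (h : Basic A) : ∃ D : Dat, D.set = A := by
  obtain ⟨hG, hI, h2, hS⟩ := h
  choose e he heu using hG
  let q0 : ZMod 2 × ((l : Fin NB) → ZMod (pr l)) := (0, 0)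
  have hb : ∀ (l : Fin NB) (x : ℤ × ℤ) q q', q.2 l = q'.2 l →
      valB l (e x q).2 = valB l (e x q').2 := by
    intro l x q q' hl
    obtain ⟨k, hk⟩ := cls_surj (q' - q)
    let k' : KK := (k.1, fun m => ((k.2 m).1, 0))
    have hk' : cls k' = q' - q := by
      rw [← hk]; refine Prod.ext ?_ ?_ <;> rfl
    have hkl : k'.2 l = 0 := by
      have := congrFun (congrArg Prod.snd hk') l
      rw [cls_snd, Prod.snd_sub, Pi.sub_apply, hl, sub_self] at this
      exact Prod.ext this rfl
    exact hI l k' hkl _ (he x q').1 _ (he x q).1 (by simp [(he x q).2.1, (he x q').2.1])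
      (by rw [(he x q).2.2, (he x q').2.2, hk', sub_sub_cancel])
  have h2' : ∀ (x : ℤ × ℤ) q q', q.1 = q'.1 → val2 (e x q).2 = val2 (e x q').2 := by
    intro x q q' hl
    obtain ⟨k, hk⟩ := cls_surj (q' - q)
    let k' : KK := (0, fun m => ((k.2 m).1, 0))
    have hk' : cls k' = q' - q := by
      rw [← hk]
      refine Prod.ext ?_ rfl
      rw [cls_fst, cls_fst]
      have := congrArg Prod.fst hk
      rw [cls_fst, Prod.fst_sub, hl, sub_self] at this
      rw [this]; simp [k']
    exact h2 k' rfl _ (he x q').1 _ (he x q).1 (by simp [(he x q).2.1, (he x q').2.1])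
      (by rw [(he x q).2.2, (he x q').2.2, hk', sub_sub_cancel])
  let one2 : ZMod 2 × ((l : Fin NB) → ZMod (pr l)) := (1, 0)
  have hlin : ∀ (x : ℤ × ℤ) (l : Fin NB), ∃ s : Bool, ∀ t : ZMod (pr l),
      valB l (e x (0, Pi.single l t)).2 = valB l (e x q0).2 + sgn s * t := by
    intro x l
    let f : ZMod (pr l) → ZMod (pr l) := fun t => valB l (e x (0, Pi.single l t)).2
    have hf : ∀ t, (f (t + 1) = f t + 1 ∧ f (t - 1) = f t - 1) ∨
        (f (t + 1) = f t - 1 ∧ f (t - 1) = f t + 1) := by
      intro t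
      have hst : cls (stepT l) = (0, Pi.single l 1) := by
        refine Prod.ext ?_ ?_
        · rw [cls_fst]; simp [stepT]
        · funext m
          rw [cls_snd]
          rcases eq_or_ne m l with rfl | hm <;> simp [stepT, *]
      exact hS l _ (he x (0, Pi.single l t)).1 _ (he x (0, Pi.single l (t + 1))).1
        _ (he x (0, Pi.single l (t - 1))).1
        (by rw [(he x _).2.1, (he x _).2.1])
        (by rw [(he x _).2.2, (he x _).2.2, hst, Prod.mk_add_mk, ← Pi.single_add, add_zero])
        (by rw [(he x _).2.1, (he x _).2.1])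
        (by rw [(he x _).2.2, (he x _).2.2, hst, Prod.mk_sub_mk, ← Pi.single_sub, sub_zero])
    have hne := one_ne_neg_one l
    obtain ⟨s, hs⟩ : ∃ s : Bool, f (0 + 1) = f 0 + sgn s := by
      rcases hf 0 with ⟨h, -⟩ | ⟨h, -⟩
      · exact ⟨true, by rw [h]; rfl⟩
      · exact ⟨false, by rw [h, sub_eq_add_neg]; rfl⟩
    refine ⟨s, ?_⟩
    have key : ∀ n : ℕ, f ((n : ZMod (pr l)) + 1) = f n + sgn s ∧ f n = f 0 + sgn s * n := by
      intro n
      induction n with
      | zero => simpa using hs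
      | succ n ih =>
        obtain ⟨h1, h2⟩ := ih
        refine ⟨?_, by push_cast; rw [h1, h2]; ring⟩
        push_cast
        rcases hf ((n : ZMod (pr l)) + 1) with ⟨ha, hb'⟩ | ⟨ha, hb'⟩ <;>
          rw [add_sub_cancel_right] at hb' <;> rw [h1] at ha hb' ⊢
        · cases s
          · exact absurd (by simp [sgn] at hb'; linear_combination hb') hne
          · rw [ha]; rfl
        · cases s
          · rw [ha, sub_eq_add_neg]; rfl
          · exact absurd (by simp [sgn] at hb'; linear_combination -hb') hne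
    intro t
    have := (key t.val).2
    rw [ZMod.natCast_zmod_val] at this
    rw [show valB l (e x (0, Pi.single l t)).2 = f t from rfl, this]
    simp only [f, Pi.single_zero]
    rfl
  choose s hs using hlin
  have hcpar : ∀ x q, ZMod.castHom (by norm_num : 2 ∣ 4) (ZMod 2) (val2 (e x q).2).2 = q.1 :=
    fun x q => by
      have := congrArg Prod.fst (he x q).2.2
      rwa [cls_fst] at this
  let D : Dat :=
    { c := fun x => val2 (e x q0).2
      v := fun x => val2 (e x one2).2 - val2 (e x q0).2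
      base := fun x l => valB l (e x q0).2
      s := s
      hc := fun x => hcpar x q0
      hv := fun x => by
        rw [Prod.snd_sub, map_sub, hcpar, hcpar]; simp [q0, one2] }
  have hel : ∀ x q j, cls (D.el x j) = q → (e x q).2 = D.el x j := by
    intro x q j hj
    rw [D.cls_el] at hj
    refine Prod.ext ?_ (funext fun l => Prod.ext ?_ ?_)
    · show val2 (e x q).2 = _
      rw [D.el_two]
      obtain ⟨i, T⟩ := j
      fin_cases i
      · rw [h2' x q q0 (by rw [← hj]; rfl)]; simp [D]
      · rw [h2' x q one2 (by rw [← hj]; rfl)]; simp [D]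
    · rw [D.el_plane, ← cls_snd, (he x q).2.2, ← hj]
    · show valB l (e x q).2 = _
      rw [D.el_plane, hb l x q (0, Pi.single l (q.2 l)) (by simp), hs x l (q.2 l)]
      simp [D, ← hj]
  refine ⟨D, Set.ext fun g => ⟨?_, ?_⟩⟩
  · rintro ⟨j, hj⟩
    have h := hel g.1 _ j rfl
    rw [hj] at h
    have : e g.1 (cls (D.el g.1 j)) = g := Prod.ext (he _ _).2.1 (by rw [hj]; exact h)
    rw [← this]; exact (he _ _).1
  · intro hg
    have hge := heu g.1 (cls g.2) g ⟨hg, rfl, rfl⟩
    obtain ⟨a, ⟨⟨j, hj⟩, h1, h2⟩, -⟩ := D.isGraph g.1 (cls g.2)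
    refine ⟨j, ?_⟩
    rw [← h1] at hge ⊢
    rw [hge]
    exact (hel a.1 (cls g.2) j (by rw [hj, h2])).symm

theorem Dat.inv_spatial (D : Dat) (l : Fin NB) (h : ℤ × ℤ) :
    InvProp D.set (valB l) (h, 0) ↔
      ∀ x, D.base (x - h) l = D.base x l ∧ D.s (x - h) l = D.s x l := by
  constructor
  · intro H x
    have key : ∀ t, D.base (x - h) l + sgn (D.s (x - h) l) * t
        = D.base x l + sgn (D.s x l) * t := fun t => by
      have := H _ (D.mem_el x (0, Pi.single l t)) _ (D.mem_el (x - h) (0, Pi.single l t)) rfl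
        (by rw [D.cls_el, D.cls_el, map_zero, sub_zero])
      simpa [D.valB_el] using this
    have h0 := key 0
    simp only [mul_zero, add_zero] at h0
    have h1 := key 1
    rw [h0, mul_one, mul_one] at h1
    refine ⟨h0, ?_⟩
    have h2 := add_left_cancel h1
    have hne := one_ne_neg_one l
    cases e1 : D.s (x - h) l <;> cases e2 : D.s x l <;> simp [sgn, e1, e2] at h2 ⊢
    · exact hne h2.symm
    · exact hne h2
  · rintro H ⟨x, a⟩ ⟨j, hj⟩ ⟨y, b⟩ ⟨j', hj'⟩ hy hq
    simp only at hj hj'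
    subst hj hj'
    simp only at hy
    subst hy
    simp only [D.cls_el, map_zero, sub_zero, Prod.ext_iff] at hq
    show valB l (D.el (x - h) j') = valB l (D.el x j)
    rw [D.valB_el, D.valB_el, (H x).1, (H x).2, hq.2]

theorem existsUnique_param {ι : Type} {P : ι → Prop} {Q : GG → Prop} (φ : ι → GG)
    (hinj : ∀ i j, P i → P j → φ i = φ j → i = j) (h : ∀ a, Q a ↔ ∃ i, P i ∧ φ i = a) :
    (∃! a, Q a) ↔ ∃! i, P i := by
  constructor
  · rintro ⟨a, ha, hu⟩
    obtain ⟨i, hi, rfl⟩ := (h a).1 ha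
    exact ⟨i, hi, fun j hj => hinj j i hj hi (hu _ ((h _).2 ⟨j, hj, rfl⟩))⟩
  · rintro ⟨i, hi, hu⟩
    refine ⟨φ i, (h _).2 ⟨i, hi, rfl⟩, fun a ha => ?_⟩
    obtain ⟨j, hj, rfl⟩ := (h a).1 ha
    rw [hu j hj]

/-- A one-position equation holds iff every centred shape is exactly covered. -/
theorem Dat.tiles_at0 (D : Dat) (S : KK → Prop) :
    GTiles (atPts 0 S) D.set ↔ ∀ x k, ∃! j, S (k - sh (D.v x) (D.s x) j) := by
  have key : ∀ g, (∃! a, a ∈ D.set ∧ g - a ∈ atPts 0 S) ↔ ∃! j, S (g.2 - D.el g.1 j) := by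
    intro g
    refine existsUnique_param (fun j => (g.1, D.el g.1 j))
      (fun i j _ _ e => D.el_inj _ (congrArg Prod.snd e)) fun a => ?_
    rw [mem_atPts, Prod.fst_sub, sub_eq_zero, Prod.snd_sub]
    constructor
    · rintro ⟨⟨j, hj⟩, h1, h2⟩
      rw [← h1] at hj
      exact ⟨j, by rw [hj]; exact h2, Prod.ext h1 hj⟩
    · rintro ⟨j, hj, rfl⟩
      exact ⟨D.mem_el _ _, rfl, hj⟩
  constructor
  · intro h x k
    have := (key (x, D.off x + k)).1 (h _)
    simpa only [Dat.el, add_sub_add_left_eq_sub] using this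
  · intro h g
    rw [key]
    have := h g.1 (g.2 - D.off g.1)
    simpa only [Dat.el, sub_sub] using this

/-- The marker equation. -/
noncomputable def tileMark : Finset GG :=
  atPts 0 (fun k => (∃ e, markE₁ e = k.1) ∧ ∀ l, (k.2 l).1 = 0) ∪
    atPts (0, -1) (fun k => (∃ e, markE₂ e = k.1) ∧ ∀ l, (k.2 l).1 = 0)

theorem mem_tileMark {g : GG} : g ∈ tileMark ↔
    (g.1 = 0 ∧ (∃ e, markE₁ e = g.2.1) ∧ ∀ l, (g.2.2 l).1 = 0) ∨
      (g.1 = (0, -1) ∧ (∃ e, markE₂ e = g.2.1) ∧ ∀ l, (g.2.2 l).1 = 0) := by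
  simp only [tileMark, Finset.mem_union, mem_atPts]

theorem markE₁_inj : Injective markE₁ := by decide

theorem markE₂_inj : Injective markE₂ := by decide

theorem Dat.tiles_mark (D : Dat) : GTiles tileMark D.set ↔
    ∀ x, Bijective (markMap (D.v x) (D.c (x + (0, 1)) - D.c x) (D.v (x + (0, 1)))) := by
  have key : ∀ g, (∃! a, a ∈ D.set ∧ g - a ∈ tileMark) ↔
      ∃! j, markMap (D.v g.1) (D.c (g.1 + (0, 1)) - D.c g.1) (D.v (g.1 + (0, 1))) j
        = g.2.1 - D.c g.1 := by
    intro g
    set T : (l : Fin NB) → ZMod (pr l) := fun l => (g.2.2 l).1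
    set x' := g.1 + (0, 1) with hx'
    have hne : x' ≠ g.1 := by simp [hx']
    have htr : ∀ x (j : Par), (∀ l, ((g.2 - D.el x j).2 l).1 = 0) ↔ j.2 = T := fun x j => by
      simp only [Prod.snd_sub, Pi.sub_apply, Prod.fst_sub, D.el_plane, sub_eq_zero, T]
      exact ⟨fun h => funext fun l => (h l).symm, fun h l => by rw [h]⟩
    refine existsUnique_param
      (fun j => Sum.elim (fun p : Fin 2 × Fin 4 => (g.1, D.el g.1 (p.1, T)))
        (fun p : Fin 2 × Fin 4 => (x', D.el x' (p.1, T))) j) ?_ fun a => ?_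
    · rintro (⟨i, e⟩ | ⟨i, e⟩) (⟨i', e'⟩ | ⟨i', e'⟩) h1 h2 h
      · simp only [Sum.elim_inl, Prod.mk.injEq, true_and] at h
        have hi := congrArg Prod.fst (D.el_inj _ h)
        simp only [markMap] at h1 h2
        subst hi
        exact congrArg _ (Prod.ext rfl (markE₁_inj (add_left_cancel (h1.trans h2.symm))))
      · exact absurd (congrArg Prod.fst h).symm hne
      · exact absurd (congrArg Prod.fst h) hne
      · simp only [Sum.elim_inr, Prod.mk.injEq, true_and] at h
        have hi := congrArg Prod.fst (D.el_inj _ h)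
        simp only [markMap] at h1 h2
        subst hi
        exact congrArg _ (Prod.ext rfl (markE₂_inj (add_left_cancel (h1.trans h2.symm))))
    · rw [mem_tileMark]
      constructor
      · rintro ⟨⟨j, hj⟩, h | h⟩ <;> obtain ⟨h1, ⟨e, h2⟩, h3⟩ := h <;>
          rw [Prod.fst_sub] at h1
        · rw [sub_eq_zero] at h1
          rw [← h1] at hj
          simp only [Prod.snd_sub, ← hj] at h2 h3
          have hT := (htr _ j).1 h3
          refine ⟨Sum.inl (j.1, e), ?_, ?_⟩
          · simp only [markMap, Prod.fst_sub, D.el_two] at h2 ⊢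
            rw [h2]; abel
          · simp only [Sum.elim_inl]
            exact Prod.ext h1 (by rw [← hj, ← hT])
        · have h1' : a.1 = x' := by
            rw [hx', show ((0, 1) : ℤ × ℤ) = -((0, -1) : ℤ × ℤ) by simp, ← h1]; abel
          rw [h1'] at hj
          simp only [Prod.snd_sub, ← hj] at h2 h3
          have hT := (htr _ j).1 h3
          refine ⟨Sum.inr (j.1, e), ?_, ?_⟩
          · simp only [markMap, Prod.fst_sub, D.el_two] at h2 ⊢
            rw [h2]; abel
          · simp only [Sum.elim_inr]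
            exact Prod.ext h1'.symm (by rw [← hj, ← hT])
      · rintro ⟨(⟨i, e⟩ | ⟨i, e⟩), hj, rfl⟩ <;> simp only [markMap] at hj
        · refine ⟨D.mem_el _ _, Or.inl ⟨sub_self _, ⟨e, ?_⟩, (htr g.1 (i, T)).2 rfl⟩⟩
          simp only [Sum.elim_inl, Prod.snd_sub, Prod.fst_sub, D.el_two]
          rw [← sub_sub, ← hj]; abel
        · refine ⟨D.mem_el _ _, Or.inr ⟨?_, ⟨e, ?_⟩, (htr x' (i, T)).2 rfl⟩⟩
          · simp only [Sum.elim_inr, Prod.fst_sub, hx']
            simp [Prod.ext_iff]
          · simp only [Sum.elim_inr, Prod.snd_sub, Prod.fst_sub, D.el_two]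
            rw [← sub_sub, show g.2.1 - D.c x' = (g.2.1 - D.c g.1) - (D.c x' - D.c g.1) by abel,
              ← hj]
            abel
  constructor
  · intro h x
    rw [bijective_iff_existsUnique]
    intro w
    have := (key (x, (D.c x + w, 0))).1 (h _)
    simpa using this
  · intro h g
    rw [key]
    exact (bijective_iff_existsUnique _).1 (h g.1) _

/-- The plane component of a point of the link gadget. -/
noncomputable def linkPlane (e : Fin 16 ⊕ Fin 8) : ZMod (pr 0) × ZMod (pr 0) := (linkE e).2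

/-- The link map, written in the first plane. -/
noncomputable def linkMap0 (v : K2) (s : Bool) :
    (Fin 2 × ZMod (pr 0)) × (Fin 16 ⊕ Fin 8) → K2 × (ZMod (pr 0) × ZMod (pr 0)) :=
  fun p => ((if p.1.1 = 0 then 0 else v) + (linkE p.2).1,
    (p.1.2 + (linkPlane p.2).1, sgn s * p.1.2 + (linkPlane p.2).2))

theorem linkMap0_eq (v : K2) (s : Bool) : linkMap0 v s = linkMap v s := rfl

/-- The link equation. -/
noncomputable def tileLink : Finset GG :=
  atPts 0 fun k => (∃ e, ((linkE e).1, linkPlane e) = (k.1, k.2 0)) ∧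
    ∀ l, l ≠ 0 → (k.2 l).1 = 0

theorem linkE_inj {e e' : Fin 16 ⊕ Fin 8} (h1 : (linkE e).1 = (linkE e').1)
    (h2 : linkPlane e = linkPlane e') : e = e' := by
  have h : linkMap0 (0, 1) true ((0, 0), e) = linkMap0 (0, 1) true ((0, 0), e') := by
    simp only [linkMap0, h1, h2]
  rw [linkMap0_eq] at h
  exact congrArg Prod.snd (link_injA h)

theorem Dat.tiles_link (D : Dat) :
    GTiles tileLink D.set ↔ ∀ x, Injective (linkMap0 (D.v x) (D.s x 0)) := by
  classical
  rw [tileLink, D.tiles_at0]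
  refine forall_congr' fun x => ?_
  set v := D.v x
  set s := D.s x
  constructor
  · rintro h ⟨⟨i, t⟩, e⟩ ⟨⟨i', t'⟩, e'⟩ hEq
    simp only [linkMap0, Prod.mk.injEq] at hEq
    obtain ⟨q1, q2, q3⟩ := hEq
    let K0 : KK := ((if i = 0 then 0 else v) + (linkE e).1,
      Pi.single 0 (t + (linkPlane e).1, sgn (s 0) * t + (linkPlane e).2))
    obtain ⟨j, -, hu⟩ := h K0
    have hsol : ∀ (i'' : Fin 2) (t'' : ZMod (pr 0)) (e'' : Fin 16 ⊕ Fin 8),
        (if i'' = 0 then 0 else v) + (linkE e'').1 = (if i = 0 then 0 else v) + (linkE e).1 →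
        t'' + (linkPlane e'').1 = t + (linkPlane e).1 →
        sgn (s 0) * t'' + (linkPlane e'').2 = sgn (s 0) * t + (linkPlane e).2 →
        (i'', Pi.single 0 t'') = j := by
      intro i'' t'' e'' a1 a2 a3
      refine hu _ ⟨⟨e'', Prod.ext ?_ (Prod.ext ?_ ?_)⟩, fun l hl => ?_⟩
      · simp [K0, sh, ← a1]
      · simp only [K0, sh, Prod.snd_sub, Pi.sub_apply, Pi.single_eq_same, Prod.fst_sub]
        linear_combination a2
      · simp only [K0, sh, Prod.snd_sub, Pi.sub_apply, Pi.single_eq_same]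
        linear_combination a3
      · simp [K0, sh, hl]
    have e1 := (hsol i t e rfl rfl rfl).trans (hsol i' t' e' q1.symm q2.symm q3.symm).symm
    simp only [Prod.mk.injEq] at e1
    obtain ⟨e1, e2⟩ := e1
    have e2' : t = t' := Pi.single_injective (0 : Fin NB) e2
    subst e1 e2'
    exact Prod.ext rfl (linkE_inj (add_left_cancel q1)
      (Prod.ext (add_left_cancel q2) (add_left_cancel q3)))
  · intro hinj k
    have hbij : Bijective (linkMap0 v (s 0)) :=
      (Fintype.bijective_iff_injective_and_card _).2 ⟨hinj, by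
        show Fintype.card ((Fin 2 × ZMod 3) × (Fin 16 ⊕ Fin 8))
          = Fintype.card (K2 × ZMod 3 × ZMod 3)
        simp⟩
    obtain ⟨⟨⟨i, t⟩, e⟩, hp, hpu⟩ := (bijective_iff_existsUnique _).1 hbij (k.1, k.2 0)
    simp only [linkMap0] at hp
    have p1 := congrArg Prod.fst hp
    have p2a := congrArg (fun z => z.2.1) hp
    have p2b := congrArg (fun z => z.2.2) hp
    simp only at p1 p2a p2b
    refine ⟨(i, update (fun l => (k.2 l).1) 0 t),
      ⟨⟨e, Prod.ext ?_ (Prod.ext ?_ ?_)⟩, fun l hl => ?_⟩, ?_⟩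
    · simp [sh, ← p1]
    · simp only [sh, Prod.snd_sub, Pi.sub_apply, Prod.fst_sub, update_self]
      linear_combination p2a
    · simp only [sh, Prod.snd_sub, Pi.sub_apply, update_self]
      linear_combination p2b
    · simp only [sh, Prod.snd_sub, Pi.sub_apply, Prod.fst_sub, update_of_ne hl, sub_self]
    · rintro ⟨i', T⟩ ⟨⟨e', he⟩, hT⟩
      have h1 := congrArg Prod.fst he
      have h2 := congrArg (fun z => z.2.1) he
      have h3 := congrArg (fun z => z.2.2) he
      simp only [sh, Prod.fst_sub, Prod.snd_sub, Pi.sub_apply] at h1 h2 h3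
      have := hpu ((i', T 0), e') (Prod.ext (by simp only [linkMap0]; rw [h1, add_sub_cancel])
        (Prod.ext (by simp only [linkMap0]; linear_combination h2)
          (by simp only [linkMap0]; linear_combination h3)))
      simp only [Prod.mk.injEq] at this
      obtain ⟨⟨r1, r2⟩, -⟩ := this
      refine Prod.ext r1 (funext fun l => ?_)
      show T l = update (fun l => (k.2 l).1) 0 t l
      rcases eq_or_ne l 0 with rfl | hl
      · rw [update_self]; exact r2
      · rw [update_of_ne hl]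
        have := hT l hl
        simp only [sh, Prod.snd_sub, Pi.sub_apply, Prod.fst_sub, sub_eq_zero] at this
        exact this.symm

/-- The flag read from the next track coordinate. -/
noncomputable def flag (t : (l : Fin NB) → ZMod (pr l)) (l : Fin NB) : ZMod (pr l) :=
  if t (l + 1) = 0 then 1 else 0

/-- The point of the clause gadget. -/
noncomputable def clausePt (ω : Fin NB → Bool) (t : (l : Fin NB) → ZMod (pr l)) : Planes :=
  fun l => (-(sgn (ω l) * flag t l * 2⁻¹), t l + flag t l * 2⁻¹)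

/-- The equation forbidding the pattern `ω`. -/
noncomputable def tileClause (ω : Fin NB → Bool) : Finset GG :=
  atPts 0 fun k => (∃ i, commonU i = k.1) ∧ ∃ t, clausePt ω t = k.2

theorem commonU_split : ∀ v : K2, ZMod.castHom (by norm_num : 2 ∣ 4) (ZMod 2) v.2 = 1 →
    ∀ w : K2, ∀ i i' : Fin 2, (∃ u, commonU u = w - (if i = 0 then 0 else v)) →
      (∃ u, commonU u = w - (if i' = 0 then 0 else v)) → i = i' := by
  intro v hv w i i' h h'
  rw [commonU_iff] at h h'
  have key : ∀ a b : ZMod 4, ZMod.castHom (by norm_num : 2 ∣ 4) (ZMod 2) a = 1 →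
      (b = 0 ∨ b = 2) → ¬(b - a = 0 ∨ b - a = 2) := by decide
  fin_cases i <;> fin_cases i'
  · rfl
  · exfalso; simp at h h'; exact key v.2 w.2 hv h h'
  · exfalso; simp at h h'; exact key v.2 w.2 hv h' h
  · rfl

theorem commonU_exists : ∀ v : K2, ZMod.castHom (by norm_num : 2 ∣ 4) (ZMod 2) v.2 = 1 →
    ∀ w : K2, ∃ i : Fin 2, ∃ u, commonU u = w - (if i = 0 then 0 else v) := by
  intro v hv w
  have key : ∀ a b : ZMod 4, ZMod.castHom (by norm_num : 2 ∣ 4) (ZMod 2) a = 1 →
      (b = 0 ∨ b = 2) ∨ (b - a = 0 ∨ b - a = 2) := by decide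
  rcases key v.2 w.2 hv with h | h
  · exact ⟨0, (commonU_iff _).2 (by simpa using h)⟩
  · exact ⟨1, (commonU_iff _).2 (by simpa using h)⟩

theorem Dat.tiles_clause (D : Dat) (ω : Fin NB → Bool) :
    GTiles (tileClause ω) D.set ↔ ∀ x, D.s x ≠ ω := by
  rw [tileClause, D.tiles_at0]
  refine forall_congr' fun x => ?_
  set v := D.v x
  set s := D.s x
  have h2 : ∀ l, (2 : ZMod (pr l)) * 2⁻¹ = 1 := fun l => mul_inv_cancel₀ fun h => by
    exact one_ne_neg_one l (by linear_combination h)
  -- the induced map on intercepts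
  let Φ : ((l : Fin NB) → ZMod (pr l)) → (l : Fin NB) → ZMod (pr l) := fun t l =>
    (clausePt ω t l).2 - sgn (s l) * (clausePt ω t l).1
  have hΦ : ∀ t l, Φ t l = if s l = ω l then t l + flag t l else t l := by
    intro t l
    simp only [Φ, clausePt]
    cases s l <;> cases ω l <;> simp [sgn] <;>
      first | ring1 | linear_combination flag t l * h2 l
  constructor
  · intro h hsω
    -- two different points with the same intercepts
    let t1 : (l : Fin NB) → ZMod (pr l) := fun _ => 0
    let t2 : (l : Fin NB) → ZMod (pr l) := fun _ => 1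
    have hf1 : ∀ l, flag t1 l = 1 := fun l => by simp [flag, t1]
    have hf2 : ∀ l, flag t2 l = 0 := fun l => by simp [flag, t2]
    let T : (l : Fin NB) → ZMod (pr l) := fun l => (clausePt ω t1 l).1 - (clausePt ω t2 l).1
    obtain ⟨j, -, hu⟩ := h (0, clausePt ω t1)
    have e1 := hu (0, 0) ⟨⟨0, by simp [sh]; rfl⟩, t1, by funext l; simp [sh]; exact (sub_zero _).symm⟩
    have e2 := hu (0, T) ⟨⟨0, by simp [sh]; rfl⟩, t2, by
      funext l
      refine Prod.ext (by simp [sh, T]) ?_
      have hA : Φ t1 l = Φ t2 l := by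
        rw [hΦ, hΦ, hsω, if_pos rfl, if_pos rfl, hf1, hf2]; simp [t1, t2]
      simp only [Φ] at hA
      simp only [sh, Prod.snd_sub, Pi.sub_apply, T]
      linear_combination -hA⟩
    have hT := congrFun (congrArg Prod.snd (e2.trans e1.symm)) 0
    simp only [T, clausePt, hf1, hf2, Pi.zero_apply] at hT
    have h20 : (2 : ZMod (pr 0))⁻¹ ≠ 0 := inv_ne_zero fun h =>
      one_ne_neg_one 0 (by linear_combination h)
    cases hω : ω 0 <;> simp [sgn, hω, h20] at hT
  · intro hne k
    obtain ⟨l₀, hl₀⟩ := Function.ne_iff.1 hne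
    have hΦinj : Injective Φ := by
      intro t t' e
      have step : ∀ l, t (l + 1) = t' (l + 1) → t l = t' l := by
        intro l hl
        have := congrFun e l
        rw [hΦ, hΦ] at this
        have hf : flag t l = flag t' l := by simp [flag, hl]
        split_ifs at this
        · rw [hf] at this; exact add_right_cancel this
        · exact this
      have h0 : t l₀ = t' l₀ := by
        have := congrFun e l₀
        rwa [hΦ, hΦ, if_neg hl₀, if_neg hl₀] at this
      have back : ∀ n : ℕ, t (l₀ - (n : Fin NB)) = t' (l₀ - (n : Fin NB)) := by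
        intro n
        induction n with
        | zero => rw [Nat.cast_zero, sub_zero]; exact h0
        | succ n ih =>
          apply step
          rw [show l₀ - ((n + 1 : ℕ) : Fin NB) + 1 = l₀ - (n : Fin NB) by push_cast; abel]
          exact ih
      funext l
      have := back (l₀ - l).val
      rwa [Fin.cast_val_eq_self, sub_sub_cancel] at this
    have hbij : Bijective Φ := Finite.injective_iff_bijective.1 hΦinj
    obtain ⟨t, ht, htu⟩ := (bijective_iff_existsUnique _).1 hbij
      fun l => (k.2 l).2 - sgn (s l) * (k.2 l).1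
    obtain ⟨i, hi⟩ := commonU_exists v (D.hv x) k.1
    refine ⟨(i, fun l => (k.2 l).1 - (clausePt ω t l).1), ⟨by simpa [sh] using hi, t, ?_⟩, ?_⟩
    · funext l
      refine Prod.ext (by simp [sh]) ?_
      have := congrFun ht l
      simp only [Φ] at this
      simp only [sh, Prod.snd_sub, Pi.sub_apply]
      linear_combination this
    · rintro ⟨i', T⟩ ⟨hu, t', ht'⟩
      have hi' : i' = i :=
        commonU_split v (D.hv x) k.1 i' i (by simpa [sh] using hu) hi
      subst hi'
      have hpt : ∀ l, (clausePt ω t' l).1 = (k.2 l).1 - T l ∧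
          (clausePt ω t' l).2 = (k.2 l).2 - sgn (s l) * T l := fun l => by
        rw [congrFun ht' l]; simp [sh]
      have htt : t' = t := htu t' (funext fun l => by
        simp only [Φ, (hpt l).1, (hpt l).2]; ring)
      subst htt
      refine Prod.ext rfl (funext fun l => ?_)
      simp only
      rw [(hpt l).1, sub_sub_cancel]

end Vale.Agent.P043.D4
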