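import Vale.Agent.P043.D4.Sudoku
import Vale.Agent.P043.D4.Shape
import Vale.Agent.P043.D4.Lift

/-!
# The aperiodic tile of `ℤ⁴`
-/

namespace Vale.Agent.P043.D4

open Function

/-- The index of the `i`-th bit of the `n`-th marker. -/
def iT (n : Fin 512) (i : Fin 6) : Fin NB :=
  ⟨1 + 10 * n.val + i.val, by have := n.2; have := i.2; simp only [NB]; omega⟩

/-- The index of the `i`-th bit of the `n`-th digit. -/
def iG (n : Fin 512) (i : Fin 4) : Fin NB :=
  ⟨1 + 10 * n.val + 6 + i.val, by have := n.2; have := i.2; simp only [NB]; omega⟩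

/-- The marker read from the bits. -/
def decT (ω : Fin NB → Bool) (n : Fin 512) : ZMod 64 :=
  ∑ i : Fin 6, if ω (iT n i) then (2 : ZMod 64) ^ i.val else 0

/-- The digit read from the bits. -/
def decG (ω : Fin NB → Bool) (n : Fin 512) : ZMod 16 :=
  ∑ i : Fin 4, if ω (iG n i) then (2 : ZMod 16) ^ i.val else 0

/-- The bit patterns allowed by the puzzle rule. -/
def Valid (ω : Fin NB → Bool) : Prop := Rule (ω 0) (decT ω) (decG ω)

/-- The bits encoding values of the puzzle. -/
def enc (μ : Bool) (τ : Fin 512 → ZMod 64) (g : Fin 512 → ZMod 16) (l : Fin NB) : Bool :=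
  if h : l.val = 0 then μ
  else
    if (l.val - 1) % 10 < 6 then
      (τ ⟨(l.val - 1) / 10, by have := l.2; simp only [NB] at this; omega⟩).val.testBit
        ((l.val - 1) % 10)
    else
      (g ⟨(l.val - 1) / 10, by have := l.2; simp only [NB] at this; omega⟩).val.testBit
        ((l.val - 1) % 10 - 6)

theorem enc_zero (μ : Bool) (τ : Fin 512 → ZMod 64) (g : Fin 512 → ZMod 16) :
    enc μ τ g 0 = μ := rfl

theorem enc_iT (μ : Bool) (τ : Fin 512 → ZMod 64) (g : Fin 512 → ZMod 16) (n : Fin 512)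
    (i : Fin 6) : enc μ τ g (iT n i) = (τ n).val.testBit i.val := by
  have h1 : (1 + 10 * n.val + i.val - 1) % 10 = i.val := by have := i.2; omega
  have h2 : (1 + 10 * n.val + i.val - 1) / 10 = n.val := by have := i.2; omega
  simp only [enc, iT, h1, h2, Fin.eta]
  rw [dif_neg (by omega), if_pos i.2]

theorem enc_iG (μ : Bool) (τ : Fin 512 → ZMod 64) (g : Fin 512 → ZMod 16) (n : Fin 512)
    (i : Fin 4) : enc μ τ g (iG n i) = (g n).val.testBit i.val := by
  have h1 : (1 + 10 * n.val + 6 + i.val - 1) % 10 = 6 + i.val := by have := i.2; omega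
  have h2 : (1 + 10 * n.val + 6 + i.val - 1) / 10 = n.val := by have := i.2; omega
  simp only [enc, iG, h1, h2, Fin.eta]
  rw [dif_neg (by omega), if_neg (by omega), Nat.add_sub_cancel_left]

theorem dec_enc (μ : Bool) (τ : Fin 512 → ZMod 64) (g : Fin 512 → ZMod 16) :
    decT (enc μ τ g) = τ ∧ decG (enc μ τ g) = g := by
  constructor <;> funext n
  · simp only [decT, enc_iT]; exact decode6 (τ n)
  · simp only [decG, enc_iG]; exact decode4 (g n)

/-- Index of the equations. -/
abbrev EqIx : Type :=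
  (Fin NB × KK) ⊕ KK ⊕ Fin NB ⊕ (Fin 512 × Fin 10) ⊕ (Fin 512 × Fin 6) ⊕ Fin 2 ⊕
    (Fin NB → Bool)

/-- The bit and spatial move attached to a column-invariance equation. -/
def lineBit (p : Fin 512 × Fin 10) : Fin NB :=
  ⟨1 + 10 * p.1.val + p.2.val, by have := p.1.2; have := p.2.2; simp only [NB]; omega⟩

/-- The spatial move along the lines of column `n`. -/
def lineDir (n : Fin 512) : ℤ × ℤ := (1, -((n.val : ℕ) : ℤ))

/-- All equations. -/
noncomputable def eqTile : EqIx → Finset GG := by
  classical exact fun o => match o with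
    | Sum.inl (l, k) => if k.2 l = 0 then tileInv (valB l) (0, k) else tileU
    | Sum.inr (Sum.inl k) => if k.1 = 0 then tileInv val2 (0, k) else tileU
    | Sum.inr (Sum.inr (Sum.inl l)) => tileSwap l
    | Sum.inr (Sum.inr (Sum.inr (Sum.inl p))) => tileInv (valB (lineBit p)) (lineDir p.1, 0)
    | Sum.inr (Sum.inr (Sum.inr (Sum.inr (Sum.inl p)))) => tileInv (valB (iT p.1 p.2)) ((0, 64), 0)
    | Sum.inr (Sum.inr (Sum.inr (Sum.inr (Sum.inr (Sum.inl b))))) =>
        if b = 0 then tileMark else tileLink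
    | Sum.inr (Sum.inr (Sum.inr (Sum.inr (Sum.inr (Sum.inr ω))))) =>
        if Valid ω then tileU else tileClause ω

theorem valB_zero (l : Fin NB) (k : KK) (hk : k.2 l = 0) : valB l k = 0 := by
  show (k.2 l).2 = 0
  rw [hk]; rfl

theorem lineBit_iT (n : Fin 512) (i : Fin 6) :
    lineBit (n, ⟨i.val, by omega⟩) = iT n i := rfl

theorem lineBit_iG (n : Fin 512) (i : Fin 4) :
    lineBit (n, ⟨6 + i.val, by omega⟩) = iG n i := Fin.ext (by simp [lineBit, iG]; omega)

theorem isB_marker : ¬ IsA ((2, 1) : K2) := by decide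

theorem marker_step {v w d : K2} (hv : ZMod.castHom (by norm_num : 2 ∣ 4) (ZMod 2) v.2 = 1)
    (hw : ZMod.castHom (by norm_num : 2 ∣ 4) (ZMod 2) w.2 = 1)
    (h : Bijective (markMap v d w)) : (IsA v ∧ IsB w) ∨ (IsB v ∧ IsA w) := by
  have podd : ∀ a : ZMod 4, ZMod.castHom (by norm_num : 2 ∣ 4) (ZMod 2) a = 1 → a.val % 2 = 1 := by
    decide
  have := mark_collision ⟨v.1.val, ZMod.val_lt _⟩ ⟨v.2.val, ZMod.val_lt _⟩ ⟨w.1.val, ZMod.val_lt _⟩
    ⟨w.2.val, ZMod.val_lt _⟩ (podd _ hv) (podd _ hw) d
  simp only [ZMod.natCast_zmod_val, Prod.mk.eta] at this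
  rcases this with h' | ⟨i, j, hne, he⟩
  · exact h'
  · exact absurd (h.1 he) hne

theorem no_periodic_system (A : Set GG) (P : ℕ) (hP : 0 < P)
    (hper : ∀ g ∈ A, ∀ h : ℤ × ℤ, g + ((P : ℤ) • h, 0) ∈ A)
    (hU : GTiles tileU A) (hall : ∀ o, GTiles (eqTile o) A) : False := by
  classical
  have hG := isGraph_iff.1 hU
  have hB : Basic A := by
    refine ⟨hG, fun l k hk => ?_, fun k hk => ?_, fun l => ?_⟩
    · have := hall (Sum.inl (l, k))
      simp only [eqTile, if_pos hk] at this
      exact (tileInv_iff hG _ _ (valB_zero l k hk)).1 this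
    · have := hall (Sum.inr (Sum.inl k))
      simp only [eqTile, if_pos hk] at this
      exact (tileInv_iff hG _ _ hk).1 this
    · exact (tileSwap_iff hG l).1 (hall (Sum.inr (Sum.inr (Sum.inl l))))
  obtain ⟨D, rfl⟩ := exists_dat hB
  have hline : ∀ p x, D.s (x + lineDir p.1) (lineBit p) = D.s x (lineBit p) := fun p x => by
    have h := hall (Sum.inr (Sum.inr (Sum.inr (Sum.inl p))))
    simp only [eqTile] at h
    have := ((D.inv_spatial _ _).1 ((tileInv_iff hG _ _ (map_zero _)).1 h) (x + lineDir p.1)).2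
    rw [add_sub_cancel_right] at this
    exact this.symm
  have h64 : ∀ n i x, D.s (x + (0, 64)) (iT n i) = D.s x (iT n i) := fun n i x => by
    have h := hall (Sum.inr (Sum.inr (Sum.inr (Sum.inr (Sum.inl (n, i))))))
    simp only [eqTile] at h
    have := ((D.inv_spatial _ _).1 ((tileInv_iff hG _ _ (map_zero _)).1 h) (x + (0, 64))).2
    rw [add_sub_cancel_right] at this
    exact this.symm
  have hmark := hall (Sum.inr (Sum.inr (Sum.inr (Sum.inr (Sum.inr (Sum.inl 0))))))
  simp only [eqTile, if_pos] at hmark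
  rw [D.tiles_mark] at hmark
  have hlink := hall (Sum.inr (Sum.inr (Sum.inr (Sum.inr (Sum.inr (Sum.inl 1))))))
  simp only [eqTile, one_ne_zero, if_false] at hlink
  rw [D.tiles_link] at hlink
  have hvalid : ∀ x, Valid (D.s x) := fun x => by
    by_contra hx
    have h := hall (Sum.inr (Sum.inr (Sum.inr (Sum.inr (Sum.inr (Sum.inr (D.s x)))))))
    simp only [eqTile, if_neg hx] at h
    exact (D.tiles_clause _).1 h x rfl
  have hAB : ∀ x, (IsA (D.v x) ∧ IsB (D.v (x + (0, 1)))) ∨ (IsB (D.v x) ∧ IsA (D.v (x + (0, 1)))) :=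
    fun x => marker_step (D.hv x) (D.hv _) (hmark x)
  have hμ : ∀ x, D.s x 0 = decide (IsA (D.v x)) := fun x => by
    have hinj := hlink x
    rw [linkMap0_eq] at hinj
    have hAB' : IsA (D.v x) ∨ IsB (D.v x) := (hAB x).imp And.left And.left
    by_contra hne
    obtain ⟨i, j, hij, he⟩ := link_collision (D.v x) (D.s x 0) (by
      rcases hAB' with h | h
      · left; refine ⟨h, ?_⟩
        cases hs : D.s x 0
        · rfl
        · exact absurd (by rw [hs]; simp [h]) hne
      · right; refine ⟨h, ?_⟩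
        cases hs : D.s x 0
        · exfalso; apply hne; rw [hs]
          have : ¬ IsA (D.v x) := by
            rintro (e | e) <;> rcases h with e' | e' <;> rw [e] at e' <;> exact absurd e' (by decide)
          simp [this]
        · rfl)
    exact hij (hinj he)
  have hnotAB : ∀ v, IsB v → ¬ IsA v := by decide
  have hsol : IsSol (fun x => D.s x 0) (fun n x => decT (D.s x) n) (fun n x => decG (D.s x) n) := by
    refine ⟨fun x => hvalid x, fun x => ?_, fun n x => ?_, fun n x => ?_, fun n x => ?_⟩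
    · simp only [hμ]
      rcases hAB x with ⟨ha, hb⟩ | ⟨hb, ha⟩ <;> simp [ha, hnotAB _ hb]
    · simp only [decT]
      refine Finset.sum_congr rfl fun i _ => ?_
      rw [← lineBit_iT, show ((1, -((n : ℕ) : ℤ)) : ℤ × ℤ) = lineDir n from rfl,
        hline (n, _)]
    · simp only [decG]
      refine Finset.sum_congr rfl fun i _ => ?_
      rw [← lineBit_iG, show ((1, -((n : ℕ) : ℤ)) : ℤ × ℤ) = lineDir n from rfl,
        hline (n, _)]
    · simp only [decT, h64]
  refine no_periodic_sol hsol P hP fun n x => ?_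
  -- periodicity of the slopes
  have hper_s : ∀ l, D.s (x + (0, (P : ℤ))) l = D.s x l := by
    intro l
    have hinv : InvProp D.set (valB l) (-(0, (P : ℤ)), 0) := by
      intro a ha b hb hb1 hb2
      have ha' := hper a ha (0, 1)
      obtain ⟨c, -, hc⟩ := D.isGraph b.1 (cls b.2)
      rw [hc b ⟨hb, rfl, rfl⟩, ← hc _ ⟨ha', ?_, ?_⟩]
      · simp
      · rw [hb1]; ext <;> simp [Prod.smul_mk]
      · rw [hb2]; simp
    have := ((D.inv_spatial _ _).1 hinv x).2
    rwa [sub_neg_eq_add] at this
  simp only [decG, hper_s]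

/-- The data of the intended solution. -/
noncomputable def solDat (bits : ℤ × ℤ → Fin NB → Bool) : Dat where
  c x := ((2 * ((x.2 / 2 : ℤ) : ZMod 4)), 0)
  v x := if x.2 % 2 = 0 then (0, 1) else (2, 1)
  base _ := 0
  s := bits
  hc x := by simp
  hv x := by split <;> simp

theorem system_has_solution : ∃ A : Set GG, GTiles tileU A ∧ ∀ o, GTiles (eqTile o) A := by
  classical
  obtain ⟨μ, τ, g, hsol, hμ⟩ := exists_sol
  let bits : ℤ × ℤ → Fin NB → Bool := fun x => enc (μ x) (fun n => τ n x) (fun n => g n x)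
  let D := solDat bits
  obtain ⟨hG, hI, h2, hS⟩ := D.basic
  refine ⟨D.set, isGraph_iff.2 hG, fun o => ?_⟩
  have hmove : ∀ x h (l : Fin NB), bits (x + h) l = bits x l →
      D.base x l = D.base (x + h) l ∧ D.s x l = D.s (x + h) l := fun x h l e => ⟨rfl, e.symm⟩
  rcases o with ⟨l, k⟩ | k | l | p | p | b | ω <;> simp only [eqTile]
  · split
    · exact (tileInv_iff hG _ _ (valB_zero l k ‹_›)).2 (hI l k ‹_›)
    · exact isGraph_iff.2 hG
  · split
    · exact (tileInv_iff hG _ _ ‹_›).2 (h2 k ‹_›)
    · exact isGraph_iff.2 hG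
  · exact (tileSwap_iff hG l).2 (hS l)
  · refine (tileInv_iff hG _ _ (map_zero _)).2 ((D.inv_spatial _ _).2 fun x => ?_)
    have hkey : ∀ y, bits (y + lineDir p.1) (lineBit p) = bits y (lineBit p) := by
      intro y
      obtain ⟨n, r⟩ := p
      by_cases hr : r.val < 6
      · rw [show lineBit (n, r) = iT n ⟨r.val, hr⟩ from rfl]
        simp only [bits, enc_iT]
        rw [show lineDir n = (1, -((n : ℕ) : ℤ)) from rfl, hsol.invT]
      · rw [show lineBit (n, r) = iG n ⟨r.val - 6, by omega⟩ from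
          Fin.ext (by simp [lineBit, iG]; omega)]
        simp only [bits, enc_iG]
        rw [show lineDir n = (1, -((n : ℕ) : ℤ)) from rfl, hsol.invG]
    have := hmove (x - lineDir p.1) (lineDir p.1) (lineBit p) (hkey _)
    rwa [sub_add_cancel] at this
  · refine (tileInv_iff hG _ _ (map_zero _)).2 ((D.inv_spatial _ _).2 fun x => ?_)
    have hkey : ∀ y, bits (y + (0, 64)) (iT p.1 p.2) = bits y (iT p.1 p.2) := fun y => by
      simp only [bits, enc_iT]; rw [hsol.perT]
    have := hmove (x - (0, 64)) (0, 64) (iT p.1 p.2) (hkey _)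
    rwa [sub_add_cancel] at this
  · fin_cases b
    · simp only [Fin.zero_eta, if_true]
      rw [D.tiles_mark]
      intro x
      rcases Int.emod_two_eq_zero_or_one x.2 with e | e
      · have e' : (x.2 + 1) / 2 = x.2 / 2 := by omega
        have e'' : (x.2 + 1) % 2 = 1 := by omega
        simp only [D, solDat, Prod.snd_add, e, e', e'', sub_self, if_true, one_ne_zero, if_false]
        exact mark_AB
      · have e' : (x.2 + 1) / 2 = x.2 / 2 + 1 := by omega
        have e'' : (x.2 + 1) % 2 = 0 := by omega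
        have hd : (((2 * ((x.2 / 2 + 1 : ℤ) : ZMod 4)), (0 : ZMod 4)) : K2)
            - ((2 * ((x.2 / 2 : ℤ) : ZMod 4)), 0) = (2, 0) := by
          refine Prod.ext ?_ (by simp)
          simp only [Prod.fst_sub]; push_cast; ring
        simp only [D, solDat, Prod.snd_add, e, e', e'', if_true, one_ne_zero, if_false, hd]
        exact mark_BA
    · simp only [Fin.mk_one, one_ne_zero, if_false]
      rw [D.tiles_link]
      intro x
      rw [linkMap0_eq]
      rcases Int.emod_two_eq_zero_or_one x.2 with e | e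
      · simp only [D, solDat, bits, enc_zero, hμ, e, if_true, decide_true]
        exact link_injA
      · simp only [D, solDat, bits, enc_zero, hμ, e, one_ne_zero, if_false, decide_false]
        exact link_injB
  · split
    · exact isGraph_iff.2 hG
    · rename_i hω
      rw [D.tiles_clause]
      intro x hx
      apply hω
      rw [← hx]
      show Rule _ _ _
      obtain ⟨e1, e2⟩ := dec_enc (μ x) (fun n => τ n x) (fun n => g n x)
      simp only [D, solDat, bits, e1, e2, enc_zero]
      exact hsol.rule x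

theorem aperiodic_tile_four : ∃ F : Finset (Fin 4 → ℤ), F.Nonempty ∧ (∃ A, Tiles F A) ∧
    ∀ A P, 0 < P → PerP P A → Tiles F A → False := by
  obtain ⟨A, hU, hA⟩ := system_has_solution
  exact lift_system eqTile A hU hA no_periodic_system

end Vale.Agent.P043.D4
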