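import Vale.Agent.P043.D4.Main

/-!
# The periodic tiling conjecture fails in `ℤ^d` for every `d ≥ 4`

The tile of `ℤ⁴` built in `Vale.Agent.P043.D4.Main` is placed in the first four coordinates.
-/

namespace Vale.Agent.P043.D4

/-- For every `d ≥ 4` there is a finite nonempty set that tiles `ℤ^d` by translations although no
tiling by it is invariant under a subgroup of finite index. -/
theorem ptc_fails_four : ∀ d : ℕ, 4 ≤ d → ∃ F : Finset (Fin d → ℤ), F.Nonempty ∧
    (∃ A : Set (Fin d → ℤ), ∀ x, ∃! a, a ∈ A ∧ x - a ∈ F) ∧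
    ∀ A : Set (Fin d → ℤ), (∀ x, ∃! a, a ∈ A ∧ x - a ∈ F) →
      ¬ ∃ H : AddSubgroup (Fin d → ℤ), H.FiniteIndex ∧ ∀ h ∈ H, ∀ a, a + h ∈ A ↔ a ∈ A := by
  classical
  intro d hd
  obtain ⟨F, hne, ⟨A₄, hA₄⟩, hno⟩ := aperiodic_tile_four
  let ext : (Fin 4 → ℤ) → (Fin d → ℤ) := fun f i => if h : (i : ℕ) < 4 then f ⟨i, h⟩ else 0
  let π : (Fin d → ℤ) → (Fin 4 → ℤ) := fun x i => x (Fin.castLE hd i)
  have hπext : ∀ f, π (ext f) = f := by
    intro f; funext i
    simp only [π, ext, Fin.val_castLE, i.isLt, dif_pos]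
  have hmem : ∀ y : Fin d → ℤ, y ∈ F.image ext ↔
      π y ∈ F ∧ ∀ i : Fin d, ¬ (i : ℕ) < 4 → y i = 0 := by
    intro y
    constructor
    · intro hy
      obtain ⟨f, hf, rfl⟩ := Finset.mem_image.1 hy
      exact ⟨by rw [hπext]; exact hf, fun i hi => dif_neg hi⟩
    · rintro ⟨hy, hz⟩
      refine Finset.mem_image.2 ⟨π y, hy, funext fun i => ?_⟩
      by_cases hi : (i : ℕ) < 4
      · simp only [ext, dif_pos hi]; rfl
      · simp only [ext, dif_neg hi, hz i hi]
  refine ⟨F.image ext, hne.image _, ⟨{a | π a ∈ A₄}, fun x => ?_⟩, fun A hA => ?_⟩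
  · obtain ⟨b, ⟨hb, hbF⟩, hbu⟩ := hA₄ (π x)
    let a₀ : Fin d → ℤ := fun i => if h : (i : ℕ) < 4 then b ⟨i, h⟩ else x i
    have hπa : π a₀ = b := by
      funext i; simp only [π, a₀, Fin.val_castLE, i.isLt, dif_pos]
    refine ⟨a₀, ⟨show π a₀ ∈ A₄ by rw [hπa]; exact hb, (hmem _).2 ⟨?_, fun i hi => ?_⟩⟩, ?_⟩
    · rw [show π (x - a₀) = π x - π a₀ from rfl, hπa]; exact hbF
    · simp only [Pi.sub_apply, a₀, dif_neg hi, sub_self]
    · rintro a ⟨ha, haF⟩
      obtain ⟨h1, h2⟩ := (hmem _).1 haF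
      have e : π a = b := hbu _ ⟨ha, h1⟩
      funext i
      by_cases hi : (i : ℕ) < 4
      · simp only [a₀, dif_pos hi, ← e]; rfl
      · simp only [a₀, dif_neg hi]
        have := h2 i hi
        simp only [Pi.sub_apply, sub_eq_zero] at this
        exact this.symm
  · rintro ⟨H, hH, hper⟩
    have hextsub : ∀ u v, ext (u - v) = ext u - ext v := by
      intro u v; funext i
      by_cases hi : (i : ℕ) < 4 <;> simp [ext, hi]
    have hext : ∀ (u w : Fin 4 → ℤ) (P : ℕ), ext (u + (P : ℤ) • w) = ext u + P • ext w := by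
      intro u w P; funext i
      by_cases hi : (i : ℕ) < 4 <;> simp [ext, hi]
    refine hno {b | ext b ∈ A} H.index (Nat.pos_of_ne_zero hH.index_ne_zero) ?_ ?_
    · intro b hb w
      show ext (b + (H.index : ℤ) • w) ∈ A
      rw [hext]
      exact (hper _ (AddSubgroup.nsmul_index_mem H (ext w)) _).2 hb
    · intro y
      obtain ⟨a, ⟨ha, haF⟩, hau⟩ := hA (ext y)
      obtain ⟨h1, h2⟩ := (hmem _).1 haF
      have ea : ext (π a) = a := by
        funext i
        by_cases hi : (i : ℕ) < 4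
        · simp only [ext, dif_pos hi]; rfl
        · have := h2 i hi
          simp only [Pi.sub_apply, ext, dif_neg hi, zero_sub, neg_eq_zero] at this
          simp only [ext, dif_neg hi, this]
      refine ⟨π a, ⟨show ext (π a) ∈ A by rw [ea]; exact ha, ?_⟩, ?_⟩
      · have : π (ext y - a) = y - π a := by
          rw [show π (ext y - a) = π (ext y) - π a from rfl, hπext]
        rwa [this] at h1
      · rintro b ⟨hb, hbF⟩
        have : ext b = a := hau _ ⟨hb, by rw [← hextsub]; exact Finset.mem_image_of_mem _ hbF⟩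
        rw [← this, hπext]

end Vale.Agent.P043.D4
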