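import Mathlib

/-!
# A base-16 Sudoku puzzle without periodic solutions

A short self-contained variant of the Greenfeld–Tao Sudoku: columns indexed by `n < 512`,
column functions constrained along every line `n ↦ m + n j` to look like
`n ↦ (last nonzero base-16 digit of A + B n)`.
-/

namespace Vale.Agent.P043.D4

/-- `v` is the last nonzero base-16 digit of `z`. -/
def Dig (z : ℤ) (v : ZMod 16) : Prop :=
  ∃ (e : ℕ) (w : ℤ), z = 16 ^ e * w ∧ ¬(16 : ℤ) ∣ w ∧ v = (w : ZMod 16)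

theorem Dig.ne_zero {z : ℤ} {v : ZMod 16} (h : Dig z v) : z ≠ 0 := by
  obtain ⟨e, w, rfl, hw, -⟩ := h
  intro h0
  rcases mul_eq_zero.1 h0 with h1 | h1
  · exact absurd h1 (pow_ne_zero e (by norm_num))
  · exact hw (h1 ▸ dvd_zero 16)

theorem dvd16_iff (z : ℤ) : (16 : ℤ) ∣ z ↔ (z : ZMod 16) = 0 :=
  (ZMod.intCast_zmod_eq_zero_iff_dvd z 16).symm

theorem Dig.eq_cast {z : ℤ} {v : ZMod 16} (h : Dig z v) (hz : (z : ZMod 16) ≠ 0) :
    v = (z : ZMod 16) := by
  obtain ⟨e, w, rfl, -, rfl⟩ := h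
  cases e with
  | zero => simp
  | succ e =>
    exfalso
    apply hz
    rw [← dvd16_iff]
    exact dvd_mul_of_dvd_left (dvd_pow_self 16 (by omega)) w

theorem Dig.div {z : ℤ} {v : ZMod 16} (h : Dig (16 * z) v) : Dig z v := by
  obtain ⟨e, w, he, hw, rfl⟩ := h
  cases e with
  | zero =>
    exfalso
    apply hw
    rw [pow_zero, one_mul] at he
    exact he ▸ dvd_mul_right 16 z
  | succ e =>
    refine ⟨e, w, ?_, hw, rfl⟩
    rw [pow_succ] at he
    have : (16 : ℤ) * z = 16 * (16 ^ e * w) := by rw [he]; ring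
    linarith

theorem dig_exists {z : ℤ} (hz : z ≠ 0) : ∃ v, Dig z v := by
  obtain ⟨n, hn⟩ : ∃ n, z.natAbs = n := ⟨_, rfl⟩
  induction n using Nat.strong_induction_on generalizing z with
  | _ n ih =>
    by_cases h : (16 : ℤ) ∣ z
    · obtain ⟨y, rfl⟩ := h
      have hy : y ≠ 0 := fun h => hz (by simp [h])
      have hlt : y.natAbs < n := by
        rw [← hn, Int.natAbs_mul]
        have : 0 < y.natAbs := Int.natAbs_pos.2 hy
        simp; omega
      obtain ⟨v, e, w, he, hw, rfl⟩ := ih y.natAbs hlt hy rfl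
      exact ⟨_, e + 1, w, by rw [he, pow_succ]; ring, hw, rfl⟩
    · exact ⟨_, 0, z, by simp, h, rfl⟩

/-- Line rule. -/
def LineRule (F : ℕ → ℤ → ZMod 16) : Prop :=
  ∀ j m : ℤ, ∃ A B : ℤ, ∀ n : ℕ, n < 512 → Dig (A + B * n) (F n (m + n * j))

/-- Standard column functions. -/
def Std (F : ℕ → ℤ → ZMod 16) (c : ZMod 16) : Prop :=
  ∀ n : ℕ, n < 512 → ∀ m : ℤ, c * (m : ZMod 16) ≠ 0 → F n m = c * (m : ZMod 16)

theorem LineRule.prim {F : ℕ → ℤ → ZMod 16} (h : LineRule F) (j m : ℤ) :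
    ∃ A B : ℤ, ((A : ZMod 16) ≠ 0 ∨ (B : ZMod 16) ≠ 0) ∧
      ∀ n : ℕ, n < 512 → Dig (A + B * n) (F n (m + n * j)) := by
  obtain ⟨A, B, hAB⟩ := h j m
  obtain ⟨k, hk⟩ : ∃ k, A.natAbs = k := ⟨_, rfl⟩
  induction k using Nat.strong_induction_on generalizing A B with
  | _ k ih =>
    by_cases h0 : (A : ZMod 16) = 0 ∧ (B : ZMod 16) = 0
    · obtain ⟨hA, hB⟩ := h0
      rw [← dvd16_iff] at hA hB
      obtain ⟨a, rfl⟩ := hA
      obtain ⟨b, rfl⟩ := hB
      have ha : a ≠ 0 := by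
        intro ha
        have := (hAB 0 (by norm_num)).ne_zero
        simp [ha] at this
      have hlt : a.natAbs < k := by
        rw [← hk, Int.natAbs_mul]
        have : 0 < a.natAbs := Int.natAbs_pos.2 ha
        simp; omega
      refine ih a.natAbs hlt a b (fun n hn => ?_) rfl
      refine Dig.div ?_
      have := hAB n hn
      rwa [show 16 * a + 16 * b * (n : ℤ) = 16 * (a + b * n) by ring] at this
    · exact ⟨A, B, by tauto, hAB⟩

/-- Units in `ZMod 16` are the odd classes. -/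
def IsOdd16 (c : ZMod 16) : Prop := ∃ d : ZMod 16, d * c = 1

theorem kernel_table : ∀ a b : ZMod 16, ∀ j : Fin 2,
    (a ≠ 0 ∨ b ≠ 0) →
    (∀ t : ZMod 16, a + b * t ≠ 0 → ((j : ℕ) + 1 : ZMod 16) * t ≠ 0 →
      a + b * t = ((j : ℕ) + 1 : ZMod 16) * t) →
    a = 0 ∧ b = ((j : ℕ) + 1 : ZMod 16) := by decide +kernel

theorem two_mul_fiber : ∀ k : ZMod 16,
    (Finset.univ.filter fun x : ZMod 16 => 2 * x + k = 0).card ≤ 2 := by decide +kernel

theorem avoid16 (d₀ d₁ d₂ : ZMod 16) : ∃ x : ZMod 16,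
    x + d₀ ≠ 0 ∧ x + d₁ ≠ 0 ∧ x + d₂ ≠ 0 ∧ x + d₁ ≠ 8 ∧ x + d₂ ≠ 2 * (x + d₁) ∧
      x + d₀ ≠ 2 * (x + d₁) ∧ (x + d₀) + (x + d₂) ≠ 0 := by
  classical
  set S : Finset (ZMod 16) := {-d₀, -d₁, -d₂, 8 - d₁, d₂ - 2 * d₁, d₀ - 2 * d₁} ∪
    (Finset.univ.filter fun x : ZMod 16 => 2 * x + (d₀ + d₂) = 0) with hS
  have hc : S.card < (Finset.univ : Finset (ZMod 16)).card := by
    have h1 := two_mul_fiber (d₀ + d₂)
    have h2 : ({-d₀, -d₁, -d₂, 8 - d₁, d₂ - 2 * d₁, d₀ - 2 * d₁} : Finset (ZMod 16)).card ≤ 6 :=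
      Finset.card_le_six
    have := Finset.card_union_le ({-d₀, -d₁, -d₂, 8 - d₁, d₂ - 2 * d₁, d₀ - 2 * d₁} :
      Finset (ZMod 16)) (Finset.univ.filter fun x : ZMod 16 => 2 * x + (d₀ + d₂) = 0)
    rw [Finset.card_univ, ZMod.card]
    rw [hS]
    omega
  obtain ⟨x, -, hx⟩ := Finset.exists_mem_notMem_of_card_lt_card hc
  simp only [hS, Finset.mem_union, Finset.mem_insert, Finset.mem_singleton, Finset.mem_filter,
    Finset.mem_univ, true_and, not_or] at hx
  obtain ⟨⟨h1, h2, h3, h4, h5, h6⟩, h7⟩ := hx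
  refine ⟨x, fun h => h1 ?_, fun h => h2 ?_, fun h => h3 ?_, fun h => h4 ?_, fun h => h5 ?_,
    fun h => h6 ?_, fun h => h7 ?_⟩
  · linear_combination h
  · linear_combination h
  · linear_combination h
  · linear_combination h
  · linear_combination -h
  · linear_combination -h
  · linear_combination h

/-- Three aligned nearly-affine values are affine. -/
theorem triple_affine {a b g₀ g₁ g₂ : ZMod 16} (hab : a ≠ 0 ∨ b ≠ 0)
    (h0 : a ≠ 0 → g₀ ≠ 0 → a = g₀) (h1 : a + b ≠ 0 → g₁ ≠ 0 → a + b = g₁)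
    (h2 : a + 2 * b ≠ 0 → g₂ ≠ 0 → a + 2 * b = g₂)
    (e0 : g₀ ≠ 0) (e1 : g₁ ≠ 0) (e2 : g₂ ≠ 0) (e8 : g₁ ≠ 8) (f2 : g₂ ≠ 2 * g₁)
    (f0 : g₀ ≠ 2 * g₁) (f1 : g₀ + g₂ ≠ 0) : g₀ + g₂ = 2 * g₁ := by
  by_cases ha : a = 0
  · by_cases hb : b = 0
    · rcases hab with h | h <;> exact absurd ‹_› h
    have hb1 : a + b ≠ 0 := by simpa [ha] using hb
    have eb : b = g₁ := by simpa [ha] using h1 hb1 e1
    by_cases h22 : a + 2 * b = 0
    · exfalso
      have : ∀ g : ZMod 16, 2 * g = 0 → g = 0 ∨ g = 8 := by decide +kernel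
      rcases this g₁ (by rw [← eb]; simpa [ha] using h22) with h | h
      · exact e1 h
      · exact e8 h
    · exfalso
      exact f2 (by rw [← h2 h22 e2, ha, eb]; ring)
  · have ea := h0 ha e0
    by_cases h11 : a + b = 0
    · exfalso
      have hb : b = -a := by linear_combination h11
      have h22 : a + 2 * b ≠ 0 := by
        rw [hb]; intro h; exact ha (by linear_combination -h)
      exact f1 (by rw [← h2 h22 e2, ← ea, hb]; ring)
    · have eb := h1 h11 e1
      by_cases h22 : a + 2 * b = 0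
      · exfalso
        exact f0 (by rw [← ea, ← eb]; linear_combination -h22)
      · rw [← h2 h22 e2, ← ea, ← eb]; ring

theorem step {F : ℕ → ℤ → ZMod 16} {c : ZMod 16} (hc : IsOdd16 c) (hR : LineRule F)
    (hS : Std F c) :
    ∃ a b : ℤ, Std (fun n m => F n (16 * (m + a + n * b))) c := by
  classical
  obtain ⟨d, hd⟩ := hc
  have hc0 : ∀ x : ZMod 16, c * x = 0 → x = 0 := fun x hx => by
    have : d * (c * x) = 0 := by rw [hx, mul_zero]
    rwa [← mul_assoc, hd, one_mul] at this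
  -- kernel lines
  have hker : ∀ (n₀ : ℕ), n₀ < 16 → ∀ (p : ℤ) (j : Fin 2), ∃ v : ZMod 16, ∀ t : ℕ, t < 32 →
      v + c * ((j : ℕ) + 1 : ZMod 16) * t ≠ 0 →
      F (n₀ + 16 * t) (16 * (p + t * ((j : ℕ) + 1 : ℤ))) = v + c * ((j : ℕ) + 1 : ZMod 16) * t := by
    intro n₀ hn₀ p j
    set J : ℤ := ((j : ℕ) + 1 : ℤ) with hJ
    set m : ℤ := 16 * p - n₀ * J with hm
    obtain ⟨A, B, hAB, hD⟩ := hR.prim J m
    have hline : ∀ n : ℕ, n < 512 → ((A + B * n : ℤ) : ZMod 16) ≠ 0 →
        c * ((m + n * J : ℤ) : ZMod 16) ≠ 0 →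
        ((A + B * n : ℤ) : ZMod 16) = c * ((m + n * J : ℤ) : ZMod 16) := by
      intro n hn h1 h2
      rw [← (hD n hn).eq_cast h1, hS n hn _ h2]
    have h16 : (16 : ZMod 16) = 0 := by decide
    have hm16 : (m : ZMod 16) = -(n₀ : ZMod 16) * ((j : ℕ) + 1 : ZMod 16) := by
      rw [hm, hJ]; push_cast; rw [h16]; ring
    obtain ⟨ha, hb⟩ := kernel_table (d * ((A : ZMod 16) + B * n₀)) (d * B) j (by
      by_contra h
      push_neg at h
      have hB : (B : ZMod 16) = 0 := by
        have := congrArg (c * ·) h.2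
        simpa [← mul_assoc, mul_comm c d, hd] using this
      have hA : (A : ZMod 16) = 0 := by
        have := congrArg (c * ·) h.1
        simpa [← mul_assoc, mul_comm c d, hd, hB] using this
      tauto) (by
      intro t h1 h2
      obtain ⟨n, hn, hnt⟩ : ∃ n : ℕ, n < 512 ∧ (n : ZMod 16) = n₀ + t :=
        ⟨n₀ + t.val, by have := ZMod.val_lt t; omega, by push_cast; rw [ZMod.natCast_zmod_val]⟩
      have e1 : ((A + B * n : ℤ) : ZMod 16) = c * (d * ((A : ZMod 16) + B * n₀) + d * B * t) := by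
        push_cast; rw [hnt]
        linear_combination -((A : ZMod 16) + B * n₀ + B * t) * hd
      have e2 : c * ((m + n * J : ℤ) : ZMod 16) = c * (((j : ℕ) + 1 : ZMod 16) * t) := by
        push_cast; rw [hm16, hnt, hJ]; push_cast; ring
      have := hline n hn (by rw [e1]; exact fun h => h1 (hc0 _ h))
        (by rw [e2]; exact fun h => h2 (hc0 _ h))
      rw [e1, e2] at this
      have h' := congrArg (d * ·) this
      simpa [← mul_assoc, hd] using h')
    have hB : (B : ZMod 16) = c * ((j : ℕ) + 1 : ZMod 16) := by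
      linear_combination c * hb - (B : ZMod 16) * hd
    have hA : ((A + B * n₀ : ℤ) : ZMod 16) = 0 := by
      push_cast; linear_combination c * ha - ((A : ZMod 16) + B * n₀) * hd
    rw [← dvd16_iff] at hA
    obtain ⟨a', ha'⟩ := hA
    refine ⟨(a' : ZMod 16), fun t ht hne => ?_⟩
    have hn : n₀ + 16 * t < 512 := by omega
    have hdig := hD (n₀ + 16 * t) hn
    have ez : A + B * ((n₀ + 16 * t : ℕ) : ℤ) = 16 * (a' + B * t) := by push_cast; linarith
    have em : m + ((n₀ + 16 * t : ℕ) : ℤ) * J = 16 * (p + t * J) := by rw [hm]; push_cast; ring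
    rw [ez, em] at hdig
    have hcast : ((a' + B * t : ℤ) : ZMod 16) = a' + c * ((j : ℕ) + 1 : ZMod 16) * t := by
      push_cast; rw [hB]
    rw [← hcast] at hne ⊢
    exact hdig.div.eq_cast hne
  choose! v hv using hker
  -- the offset does not depend on the position
  set β : ℕ → ℤ → ZMod 16 := fun n₀ p => v n₀ p 0 - c * p with hβ
  set β' : ℕ → ℤ → ZMod 16 := fun n₀ r => v n₀ r 1 - c * r with hβ'
  have hmeet : ∀ n₀ < 16, ∀ p r : ℤ, r ≤ p → p < r + 32 →
      β n₀ p = β' n₀ r ∨ c * (2 * p - r) + β n₀ p = 0 ∨ c * (2 * p - r) + β' n₀ r = 0 := by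
    intro n₀ hn₀ p r h1 h2
    obtain ⟨t, ht⟩ : ∃ t : ℕ, (t : ℤ) = p - r := ⟨(p - r).toNat, by omega⟩
    have htc : (t : ZMod 16) = (p : ZMod 16) - r := by
      rw [← Int.cast_natCast t, ht, Int.cast_sub]
    have ev0 : v n₀ p 0 + c * (((0 : Fin 2) : ℕ) + 1 : ZMod 16) * t
        = c * (2 * p - r) + β n₀ p := by
      simp only [hβ, Fin.val_zero, Nat.cast_zero]; rw [htc]; ring
    have ev1 : v n₀ r 1 + c * (((1 : Fin 2) : ℕ) + 1 : ZMod 16) * t
        = c * (2 * p - r) + β' n₀ r := by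
      simp only [hβ', Fin.val_one, Nat.cast_one]; rw [htc]; ring
    by_cases h3 : c * (2 * p - r) + β n₀ p = 0
    · exact Or.inr (Or.inl h3)
    by_cases h4 : c * (2 * p - r) + β' n₀ r = 0
    · exact Or.inr (Or.inr h4)
    left
    have a1 := hv n₀ hn₀ p 0 t (by omega) (by rw [ev0]; exact h3)
    have a2 := hv n₀ hn₀ r 1 t (by omega) (by rw [ev1]; exact h4)
    rw [ev0] at a1
    rw [ev1] at a2
    have epos : (16 : ℤ) * (p + t * (((0 : Fin 2) : ℕ) + 1 : ℤ))
        = 16 * (r + t * (((1 : Fin 2) : ℕ) + 1 : ℤ)) := by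
      simp only [Fin.val_zero, Fin.val_one, Nat.cast_zero, Nat.cast_one]; rw [ht]; ring
    rw [epos, a2] at a1
    linear_combination -a1
  have hconst : ∀ n₀ < 16, ∀ p : ℤ, β n₀ (p + 1) = β n₀ p := by
    intro n₀ hn₀ p
    by_contra hne
    set S : Finset (ZMod 16) := {2 * p + d * β n₀ p, 2 * (p + 1) + d * β n₀ (p + 1),
      2 * (p + 1) + d * β n₀ p, 2 * p + d * β n₀ (p + 1)} with hS'
    have hcard : S.card < (Finset.univ : Finset (ZMod 16)).card := by
      have : S.card ≤ 4 := Finset.card_le_four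
      rw [Finset.card_univ, ZMod.card]; omega
    obtain ⟨ρ, -, hρ⟩ := Finset.exists_mem_notMem_of_card_lt_card hcard
    set r : ℤ := p - (((p : ZMod 16) - ρ).val : ℤ) with hr
    have hρr : (r : ZMod 16) = ρ := by
      rw [hr]; push_cast; rw [ZMod.natCast_zmod_val]; ring
    have hlt := ZMod.val_lt ((p : ZMod 16) - ρ)
    simp only [hS', Finset.mem_insert, Finset.mem_singleton, not_or] at hρ
    obtain ⟨q1, q2, q3, q4⟩ := hρ
    have hcase : ∀ (P : ℤ) (b : ZMod 16), c * (2 * P - r) + b = 0 → ρ = 2 * P + d * b := by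
      intro P b h; rw [hρr] at h; linear_combination -d * h + (2 * (P : ZMod 16) - ρ) * hd
    have m0 := hmeet n₀ hn₀ p r (by omega) (by omega)
    have m1 := hmeet n₀ hn₀ (p + 1) r (by omega) (by omega)
    rcases m0 with m0 | m0 | m0
    · rcases m1 with m1 | m1 | m1
      · exact hne (m1.trans m0.symm)
      · exact q2 (by have := hcase _ _ m1; push_cast at this; exact this)
      · rw [← m0] at m1
        exact q3 (by have := hcase _ _ m1; push_cast at this; exact this)
    · exact q1 (hcase _ _ m0)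
    · rcases m1 with m1 | m1 | m1
      · rw [← m1] at m0
        exact q4 (hcase _ _ m0)
      · exact q2 (by have := hcase _ _ m1; push_cast at this; exact this)
      · have : (2 : ZMod 16) * c = 0 := by push_cast at m1; linear_combination m1 - m0
        exact absurd (hc0 2 (by linear_combination this)) (by decide)
  have hconst' : ∀ n₀ < 16, ∀ p : ℤ, β n₀ p = β n₀ 0 := by
    intro n₀ hn₀ p
    induction p with
    | zero => rfl
    | succ i hi => rw [hconst n₀ hn₀, hi]
    | pred i hi =>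
      have := hconst n₀ hn₀ (-(i : ℤ) - 1)
      rw [sub_add_cancel] at this
      rw [← this, hi]
  set bb : ℕ → ZMod 16 := fun n => β (n % 16) 0 with hbb
  have hH : ∀ n < 512, ∀ w : ℤ, c * w + bb n ≠ 0 → F n (16 * w) = c * w + bb n := by
    intro n hn w hw
    obtain ⟨t₀, ht₀⟩ : ∃ t₀, n / 16 = t₀ := ⟨_, rfl⟩
    set p : ℤ := w - (t₀ : ℤ) with hp
    have e : v (n % 16) p 0 + c * (((0 : Fin 2) : ℕ) + 1 : ZMod 16) * (t₀ : ZMod 16)
        = c * w + bb n := by
      have := hconst' (n % 16) (Nat.mod_lt _ (by norm_num)) p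
      simp only [hβ] at this
      simp only [hbb, hβ, ← this, Fin.val_zero, Nat.cast_zero, hp]
      push_cast; ring
    have := hv (n % 16) (Nat.mod_lt _ (by norm_num)) p 0 t₀ (by omega) (by rw [e]; exact hw)
    rw [e, ← ht₀, Nat.mod_add_div, ht₀] at this
    rw [← this]
    congr 1
    simp [hp]
  -- the offsets are affine in the column index
  have haff : ∀ n : ℕ, n + 2 < 512 → bb n + bb (n + 2) = 2 * bb (n + 1) := by
    intro n hn
    obtain ⟨x, e0, e1, e2, e8, f2, f0, f1⟩ := avoid16 (bb n) (bb (n + 1)) (bb (n + 2))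
    set w : ℤ := ((d * x).val : ℤ) with hw
    have hcw : c * (w : ZMod 16) = x := by
      rw [hw]; push_cast; rw [ZMod.natCast_zmod_val]; linear_combination x * hd
    obtain ⟨A, B, hAB, hD⟩ := hR.prim 0 (16 * w)
    have hval : ∀ i : ℕ, n + i < 512 → ((A + B * (n + i : ℕ) : ℤ) : ZMod 16) ≠ 0 →
        x + bb (n + i) ≠ 0 → ((A + B * (n + i : ℕ) : ℤ) : ZMod 16) = x + bb (n + i) := by
      intro i hi h1 h2
      rw [← (hD (n + i) hi).eq_cast h1, mul_zero, add_zero, hH _ hi w (by rw [hcw]; exact h2), hcw]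
    have key := triple_affine (a := (A : ZMod 16) + B * n) (b := (B : ZMod 16))
      (g₀ := x + bb n) (g₁ := x + bb (n + 1)) (g₂ := x + bb (n + 2))
      (by
        by_contra h
        push_neg at h
        have := h.1
        rw [h.2, zero_mul, add_zero] at this
        tauto)
      (fun h1 h2 => by simpa using hval 0 (by omega) (by simpa using h1) (by simpa using h2))
      (fun h1 h2 => by
        have := hval 1 (by omega)
        push_cast at this
        rw [mul_add, mul_one, ← add_assoc] at this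
        exact this h1 h2)
      (fun h1 h2 => by
        have := hval 2 (by omega)
        push_cast at this
        rw [mul_add, ← add_assoc, mul_comm (B : ZMod 16) 2] at this
        exact this h1 h2)
      e0 e1 e2 e8 f2 f0 f1
    linear_combination key
  set δ : ZMod 16 := bb 1 - bb 0 with hδ
  have hlin : ∀ n : ℕ, n < 512 → bb n = bb 0 + n * δ := by
    intro n hn
    induction n using Nat.twoStepInduction with
    | zero => simp
    | one => simp [hδ]
    | more k ih1 ih2 =>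
      have := haff k hn
      have i1 := ih1 (by omega)
      have i2 := ih2 (by omega)
      push_cast at i2 ⊢
      linear_combination this - i1 + 2 * i2
  refine ⟨-(((d * bb 0).val : ℕ) : ℤ), -(((d * δ).val : ℕ) : ℤ), fun n hn m hm => ?_⟩
  have e : c * ((m + -(((d * bb 0).val : ℕ) : ℤ) + n * -(((d * δ).val : ℕ) : ℤ) : ℤ) : ZMod 16)
      + bb n = c * (m : ZMod 16) := by
    push_cast
    rw [ZMod.natCast_zmod_val, ZMod.natCast_zmod_val, hlin n hn]
    linear_combination -(bb 0 + n * δ) * hd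
  have := hH n hn _ (by rw [e]; exact hm)
  rw [e] at this
  exact this

theorem no_periodic_std {c : ZMod 16} (hc : IsOdd16 c) (k : ℕ) :
    ∀ (F : ℕ → ℤ → ZMod 16) (P : ℕ), P % 2 = 1 → LineRule F → Std F c →
      (∀ n, n < 512 → ∀ m : ℤ, F n (m + (16 ^ k * P : ℕ)) = F n m) → False := by
  obtain ⟨d, hd⟩ := hc
  have hc0 : ∀ x : ZMod 16, c * x = 0 → x = 0 := fun x hx => by
    have : d * (c * x) = 0 := by rw [hx, mul_zero]
    rwa [← mul_assoc, hd, one_mul] at this
  induction k with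
  | zero =>
    intro F P hP _ hS hper
    have hkey : ∀ m : ZMod 16, m ≠ 0 → m + (P : ZMod 16) ≠ 0 → False := by
      intro m h1 h2
      have a := hper 0 (by norm_num) (m.val : ℤ)
      rw [hS 0 (by norm_num) _ (fun h => h2 ?_), hS 0 (by norm_num) _ (fun h => h1 ?_)] at a
      · have hP0 : (P : ZMod 16) = 0 := by
          push_cast at a
          exact hc0 _ (by linear_combination a)
        rw [ZMod.natCast_eq_zero_iff] at hP0
        omega
      · have := hc0 _ h
        simpa using this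
      · have := hc0 _ h
        simpa using this
    by_cases h : (1 : ZMod 16) + P = 0
    · refine hkey 2 (by decide) (fun h2 => ?_)
      exact absurd (show (1 : ZMod 16) = 0 by linear_combination h2 - h) (by decide)
    · exact hkey 1 (by decide) h
  | succ k ih =>
    intro F P hP hR hS hper
    obtain ⟨a, b, hS'⟩ := step ⟨d, hd⟩ hR hS
    refine ih _ P hP ?_ hS' fun n hn m => ?_
    · intro j m
      obtain ⟨A, B, h⟩ := hR (16 * (j + b)) (16 * (m + a))
      exact ⟨A, B, fun n hn => by convert h n hn using 2; ring⟩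
    · have := hper n hn (16 * (m + a + n * b))
      rw [← this]
      congr 1
      push_cast; ring

/-- The puzzle rule at one point of the plane. -/
def Rule (μ : Bool) (τ : Fin 512 → ZMod 64) (g : Fin 512 → ZMod 16) : Prop :=
  ∃ A B : ℤ, (∀ n : Fin 512, τ n = ((A + B * (n : ℕ) : ℤ) : ZMod 64) ∧
    Dig (A + B * (n : ℕ)) (g n)) ∧ μ = decide (A % 2 = 0)

/-- Solutions of the puzzle. -/
structure IsSol (μ : ℤ × ℤ → Bool) (τ : Fin 512 → ℤ × ℤ → ZMod 64)
    (g : Fin 512 → ℤ × ℤ → ZMod 16) : Prop where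
  rule : ∀ x, Rule (μ x) (fun n => τ n x) (fun n => g n x)
  alt : ∀ x, μ (x + (0, 1)) = !μ x
  invT : ∀ n x, τ n (x + (1, -((n : ℕ) : ℤ))) = τ n x
  invG : ∀ n x, g n (x + (1, -((n : ℕ) : ℤ))) = g n x
  perT : ∀ n x, τ n (x + (0, 64)) = τ n x

theorem line_value {α : Type} {n : ℕ} (f : ℤ × ℤ → α)
    (h : ∀ x, f (x + (1, -(n : ℤ))) = f x) (j m : ℤ) : f (j, m) = f (0, m + n * j) := by
  induction j generalizing m with
  | zero => simp
  | succ i hi =>
    have := h ((i : ℤ), m + n)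
    rw [Prod.mk_add_mk, show m + (n : ℤ) + -(n : ℤ) = m by ring] at this
    rw [this, hi]
    congr 2; ring
  | pred i hi =>
    have := h (-(i : ℤ) - 1, m)
    rw [Prod.mk_add_mk, show -(i : ℤ) - 1 + 1 = -(i : ℤ) by ring] at this
    rw [← this, hi]
    congr 2; ring

theorem no_periodic_sol {μ : ℤ × ℤ → Bool} {τ : Fin 512 → ℤ × ℤ → ZMod 64}
    {g : Fin 512 → ℤ × ℤ → ZMod 16} (h : IsSol μ τ g) (P : ℕ) (hP : 0 < P)
    (hper : ∀ n x, g n (x + (0, (P : ℤ))) = g n x) : False := by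
  let T : Fin 512 → ℤ → ℤ := fun n m => ((τ n (0, m)).val : ℤ)
  have hT : ∀ n j m, τ n (j, m) = ((T n (m + (n : ℕ) * j) : ℤ) : ZMod 64) := fun n j m => by
    simp only [T]; push_cast; rw [ZMod.natCast_zmod_val]; exact line_value _ (h.invT n) j m
  -- affine behaviour of the markers
  have hlin : ∀ j m : ℤ, ∃ A B : ℤ, (∀ n : Fin 512,
      (64 : ℤ) ∣ T n (m + (n : ℕ) * j) - (A + B * (n : ℕ))) ∧
      μ (j, m) = decide (A % 2 = 0) := by
    intro j m
    obtain ⟨A, B, h1, h2⟩ := h.rule (j, m)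
    refine ⟨A, B, fun n => ?_, h2⟩
    have := (hT n j m).symm.trans (h1 n).1
    rw [show (64 : ℤ) = ((64 : ℕ) : ℤ) from rfl, ← ZMod.intCast_zmod_eq_zero_iff_dvd,
      Int.cast_sub, this, sub_self]
  let T0 := T 0
  let T1 := T 1
  have r2 : ∀ j m : ℤ, (64 : ℤ) ∣ T 2 (m + 2 * j) - (2 * T1 (m + j) - T0 m) := fun j m => by
    obtain ⟨A, B, h1, -⟩ := hlin j m
    have a0 := h1 0; have a1 := h1 1; have a2 := h1 2
    simp at a0 a1 a2
    simp only [T0, T1]
    omega
  have r3 : ∀ j m : ℤ, (64 : ℤ) ∣ T 3 (m + 3 * j) - (3 * T1 (m + j) - 2 * T0 m) := fun j m => by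
    obtain ⟨A, B, h1, -⟩ := hlin j m
    have a0 := h1 0; have a1 := h1 1; have a3 := h1 3
    simp at a0 a1 a3
    simp only [T0, T1]
    omega
  have he : ∀ m u : ℤ, (64 : ℤ) ∣ (T0 (m + 2) - T0 m) - 2 * (T1 (u + 1) - T1 u) := fun m u => by
    have a := r2 (u - m) m
    have b := r2 (u - m - 1) (m + 2)
    rw [show m + (u - m) = u by ring] at a
    rw [show m + 2 + (u - m - 1) = u + 1 by ring,
      show m + 2 + 2 * (u - m - 1) = m + 2 * (u - m) by ring] at b
    omega
  have h3 : ∀ m u : ℤ, (64 : ℤ) ∣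
      2 * (T0 (m + 3) - T0 m) - 3 * (T1 (u + 2) - T1 u) := fun m u => by
    have a := r3 (u - m) m
    have b := r3 (u - m - 1) (m + 3)
    rw [show m + (u - m) = u by ring] at a
    rw [show m + 3 + (u - m - 1) = u + 2 by ring,
      show m + 3 + 3 * (u - m - 1) = m + 3 * (u - m) by ring] at b
    omega
  set c₀ : ℤ := T0 1 - T0 0 with hc₀
  have hD0 : ∀ m : ℤ, (32 : ℤ) ∣ (T0 (m + 1) - T0 m) - c₀ := fun m => by
    have a := h3 m 0
    have b := h3 0 0
    have a' := he (m + 1) 0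
    have b' := he 1 0
    rw [show m + 1 + 2 = m + 3 by ring] at a'
    simp at a a' b b' ⊢
    omega
  have hD1 : ∀ u : ℤ, (16 : ℤ) ∣ (T1 (u + 1) - T1 u) - c₀ := fun u => by
    have a := he 0 u
    have b := hD0 1
    rw [show (1 : ℤ) + 1 = 2 by norm_num] at b
    simp at a
    omega
  have cast16 : ∀ {a b : ℤ}, (16 : ℤ) ∣ a - b → (a : ZMod 16) = b := fun {a b} hab => by
    rw [dvd16_iff] at hab
    push_cast at hab
    linear_combination hab
  set c : ZMod 16 := (c₀ : ZMod 16) with hc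
  have hT0 : ∀ m : ℤ, (T0 m : ZMod 16) = c * m + T0 0 := by
    intro m
    induction m with
    | zero => simp
    | succ i hi =>
      have e := cast16 (dvd_trans (by norm_num) (hD0 i))
      push_cast at e hi ⊢
      linear_combination e + hi
    | pred i hi =>
      have e := cast16 (dvd_trans (by norm_num) (hD0 (-(i : ℤ) - 1)))
      rw [sub_add_cancel] at e
      push_cast at e hi ⊢
      linear_combination hi - e
  have hT1 : ∀ m : ℤ, (T1 m : ZMod 16) = c * m + T1 0 := by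
    intro m
    induction m with
    | zero => simp
    | succ i hi =>
      have e := cast16 (hD1 i)
      push_cast at e hi ⊢
      linear_combination e + hi
    | pred i hi =>
      have e := cast16 (hD1 (-(i : ℤ) - 1))
      rw [sub_add_cancel] at e
      push_cast at e hi ⊢
      linear_combination hi - e
  have hodd : IsOdd16 c := by
    have hval : ∀ x : ZMod 16, x.val % 2 = 1 → ∃ d, d * x = 1 := by decide +kernel
    obtain ⟨A, B, h1, hμ⟩ := hlin 0 0
    obtain ⟨A', B', h1', hμ'⟩ := hlin 0 1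
    have a := h1 0; have a' := h1' 0
    simp at a a'
    have halt := h.alt (0, 0)
    simp only [Prod.mk_add_mk, zero_add] at halt
    rw [hμ, hμ'] at halt
    have hparity : c₀ % 2 = 1 := by
      by_contra hne
      simp only [hc₀, T0] at hne
      rcases Int.emod_two_eq_zero_or_one A with e | e <;>
        rcases Int.emod_two_eq_zero_or_one A' with e' | e' <;>
        simp [e, e'] at halt <;> omega
    refine hval c ?_
    have := ZMod.val_intCast (n := 16) c₀
    rw [← hc] at this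
    omega
  set δ : ZMod 16 := (T1 0 : ZMod 16) - T0 0 with hδ
  set b₀ : ZMod 16 := (T0 0 : ZMod 16) with hb₀
  obtain ⟨d, hd⟩ := hodd
  set a : ℤ := -(((d * b₀).val : ℕ) : ℤ) with ha
  set b : ℤ := -(((d * δ).val : ℕ) : ℤ) with hb
  let F₀ : ℕ → ℤ → ZMod 16 := fun n m => if hn : n < 512 then g ⟨n, hn⟩ (0, m) else 0
  have hline : ∀ j m : ℤ, ∀ n, (hn : n < 512) → g ⟨n, hn⟩ (j, m) = F₀ n (m + n * j) := by
    intro j m n hn
    simp only [F₀, dif_pos hn]
    exact line_value _ (h.invG ⟨n, hn⟩) j m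
  have hR : LineRule F₀ := by
    intro j m
    obtain ⟨A, B, h1, -⟩ := h.rule (j, m)
    exact ⟨A, B, fun n hn => by rw [← hline j m n hn]; exact (h1 ⟨n, hn⟩).2⟩
  have hS : Std (fun n m => F₀ n (m + a + n * b)) c := by
    intro n hn m hm
    set w : ℤ := m + a + n * b with hw
    obtain ⟨A, B, h1, -⟩ := h.rule (0, w)
    obtain ⟨h1t, h1g⟩ := h1 ⟨n, hn⟩
    have e0 := (hT 0 0 w).symm.trans (h1 0).1
    have e1 := (hT 1 0 w).symm.trans (h1 1).1
    simp at e0 e1
    have e0' := congrArg (ZMod.castHom (show 16 ∣ 64 by norm_num) (ZMod 16)) e0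
    have e1' := congrArg (ZMod.castHom (show 16 ∣ 64 by norm_num) (ZMod 16)) e1
    simp only [map_add, map_intCast] at e0' e1'
    have ez : ((A + B * (n : ℕ) : ℤ) : ZMod 16) = c * m := by
      have t0 := hT0 w
      have t1 := hT1 w
      simp only [T0, T1] at t0 t1 hb₀ hδ
      push_cast
      rw [hw] at t0 t1 e0' e1'
      simp only [ha, hb] at t0 t1 e0' e1'
      push_cast at t0 t1 e0' e1'
      rw [ZMod.natCast_zmod_val, ZMod.natCast_zmod_val] at t0 t1
      linear_combination (n : ZMod 16) * (t1 - e1') + (1 - (n : ZMod 16)) * (t0 - e0')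
        - (b₀ + n * δ) * hd + (n : ZMod 16) * hδ + hb₀
    simp only
    show F₀ n w = c * (m : ZMod 16)
    rw [show F₀ n w = g ⟨n, hn⟩ (0, w) by rw [hline 0 w n hn]; simp, ← ez]
    exact h1g.eq_cast (by rw [ez]; exact hm)
  obtain ⟨k, P', hP', rfl⟩ := Nat.exists_eq_two_pow_mul_odd hP.ne'
  refine no_periodic_std ⟨d, hd⟩ k _ P' (Nat.odd_iff.1 hP') ?_ hS fun n hn m => ?_
  · intro j m
    obtain ⟨A, B, h'⟩ := hR (j + b) (m + a)
    exact ⟨A, B, fun n hn => by convert h' n hn using 2; ring⟩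
  · have hmul : ∀ (i : ℕ) (w : ℤ), g ⟨n, hn⟩ (0, w + (i : ℤ) * ((2 ^ k * P' : ℕ) : ℤ))
        = g ⟨n, hn⟩ (0, w) := by
      intro i
      induction i with
      | zero => simp
      | succ i hi =>
        intro w
        have := hper ⟨n, hn⟩ (0, w + (i : ℤ) * ((2 ^ k * P' : ℕ) : ℤ))
        simp only [Prod.mk_add_mk, add_zero] at this
        rw [← hi w, ← this]
        congr 2; push_cast; ring
    simp only [F₀, dif_pos hn]
    rw [← hmul (8 ^ k) (m + a + n * b)]
    congr 2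
    push_cast
    rw [show (16 : ℤ) ^ k = 8 ^ k * 2 ^ k by rw [← mul_pow]; norm_num]
    ring

theorem dig_unique_value {z : ℤ} {v v' : ZMod 16} (h : Dig z v) (h' : Dig z v') : v = v' := by
  obtain ⟨e, w, rfl, hw, rfl⟩ := h
  obtain ⟨e', w', he, hw', rfl⟩ := h'
  have h16 : ∀ k : ℕ, (16 : ℤ) ^ k ≠ 0 := fun k => pow_ne_zero k (by norm_num)
  rcases lt_trichotomy e e' with hlt | rfl | hlt
  · exfalso; apply hw
    rw [show e' = e + (e' - e - 1) + 1 by omega, pow_succ, pow_add, mul_assoc, mul_assoc] at he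
    rw [mul_left_cancel₀ (h16 e) he]
    exact dvd_mul_of_dvd_right (dvd_mul_right 16 w') _
  · rw [mul_left_cancel₀ (h16 e) he]
  · exfalso; apply hw'
    rw [show e = e' + (e - e' - 1) + 1 by omega, pow_succ, pow_add, mul_assoc, mul_assoc] at he
    rw [← mul_left_cancel₀ (h16 e') he]
    exact dvd_mul_of_dvd_right (dvd_mul_right 16 w) _

/-- The puzzle has a solution, with `μ` the parity of the second coordinate. -/
theorem exists_sol : ∃ (μ : ℤ × ℤ → Bool) (τ : Fin 512 → ℤ × ℤ → ZMod 64)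
    (g : Fin 512 → ℤ × ℤ → ZMod 16), IsSol μ τ g ∧ ∀ x, μ x = decide (x.2 % 2 = 0) := by
  classical
  let Z : ℕ → ℕ → ℤ → ℤ := fun L n m => m + 64 * ((L : ℤ) ^ 2 + n * L)
  let U : Ultrafilter ℕ := Filter.hyperfilter ℕ
  have hU : ∀ {p : ℕ → Prop}, (∀ᶠ L in Filter.atTop, p L) → ∀ᶠ L in (U : Filter ℕ), p L := by
    intro p hp
    rw [← Nat.cofinite_eq_atTop] at hp
    exact Filter.hyperfilter_le_cofinite hp
  have hev : ∀ n m, ∀ᶠ L in (U : Filter ℕ), ∃ v, Dig (Z L n m) v := by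
    intro n m
    refine hU (Filter.eventually_atTop.2 ⟨m.natAbs + 1, fun L hL => dig_exists ?_⟩)
    simp only [Z]
    have h1 : (L : ℤ) ≤ (L : ℤ) ^ 2 + n * L := by
      have : (1 : ℤ) ≤ (L : ℤ) := by exact_mod_cast (by omega : 1 ≤ L)
      nlinarith
    omega
  have hch : ∀ n m, ∃ v, ∀ᶠ L in (U : Filter ℕ), Dig (Z L n m) v := fun n m =>
    Ultrafilter.eventually_exists_iff.1 (hev n m)
  choose G hG using hch
  refine ⟨fun x => decide (x.2 % 2 = 0), fun n x => (((n : ℕ) * x.1 + x.2 : ℤ) : ZMod 64),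
    fun n x => G n ((n : ℕ) * x.1 + x.2), ⟨?_, ?_, ?_, ?_, ?_⟩, fun x => rfl⟩
  · intro x
    have hall : ∀ᶠ L in (U : Filter ℕ), ∀ n : Fin 512,
        Dig (Z L n ((n : ℕ) * x.1 + x.2)) (G n ((n : ℕ) * x.1 + x.2)) :=
      Filter.eventually_all.2 fun n => hG _ _
    obtain ⟨L, hL⟩ := hall.exists
    refine ⟨x.2 + 64 * (L : ℤ) ^ 2, x.1 + 64 * L, fun n => ⟨?_, ?_⟩, ?_⟩
    · simp only
      rw [ZMod.intCast_eq_intCast_iff', show x.2 + 64 * (L : ℤ) ^ 2 + (x.1 + 64 * L) * (n : ℕ)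
        = (n : ℕ) * x.1 + x.2 + 64 * ((L : ℤ) ^ 2 + (n : ℕ) * L) by ring]
      simp
    · convert hL n using 1
      simp only [Z]; ring
    · simp only [decide_eq_decide]; omega
  · intro x
    simp only [Prod.snd_add]
    rcases Int.emod_two_eq_zero_or_one x.2 with e | e <;> simp [e] <;> omega
  · intro n x
    simp only [Prod.fst_add, Prod.snd_add]
    congr 1; ring
  · intro n x
    simp only [Prod.fst_add, Prod.snd_add]
    congr 1; ring
  · intro n x
    simp only [Prod.fst_add, Prod.snd_add]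
    rw [ZMod.intCast_eq_intCast_iff', add_zero]
    push_cast
    omega

end Vale.Agent.P043.D4
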