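import Mathlib

/-!
# Finite tables for the marker gadget in `(ℤ/4)²` and its link with a slope in `(ℤ/3)²`
-/

namespace Vale.Agent.P043.D4

/-- The two-dimensional 2-part `(ℤ/4)²`. -/
abbrev K2 := ZMod 4 × ZMod 4

/-- First half of the marker equation. -/
def markE₁ : Fin 4 → K2 := ![(0, 0), (1, 0), (2, 0), (3, 2)]

/-- Second half of the marker equation. -/
def markE₂ : Fin 4 → K2 := ![(0, 2), (1, 3), (2, 2), (3, 1)]

/-- The common complement subgroup. -/
def commonU : Fin 8 → K2 :=
  ![(0, 0), (1, 0), (2, 0), (3, 0), (0, 2), (1, 2), (2, 2), (3, 2)]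

/-- The 16 points covered by the marker equation for steps `v`, `w` and offset `d`. -/
def markMap (v d w : K2) : (Fin 2 × Fin 4) ⊕ (Fin 2 × Fin 4) → K2
  | Sum.inl (i, e) => (if i = 0 then 0 else v) + markE₁ e
  | Sum.inr (i, e) => d + (if i = 0 then 0 else w) + markE₂ e

/-- Steps of type A. -/
def IsA (v : K2) : Prop := v = (0, 1) ∨ v = (0, 3)

/-- Steps of type B. -/
def IsB (v : K2) : Prop := v = (2, 1) ∨ v = (2, 3)

instance (v : K2) : Decidable (IsA v) := by unfold IsA; infer_instance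
instance (v : K2) : Decidable (IsB v) := by unfold IsB; infer_instance

theorem mark_collision : ∀ a b : Fin 4, ∀ a' b' : Fin 4, b.val % 2 = 1 → b'.val % 2 = 1 →
    ∀ d : K2,
      ((IsA ((a.val : ZMod 4), (b.val : ZMod 4)) ∧ IsB ((a'.val : ZMod 4), (b'.val : ZMod 4))) ∨
        (IsB ((a.val : ZMod 4), (b.val : ZMod 4)) ∧ IsA ((a'.val : ZMod 4), (b'.val : ZMod 4)))) ∨
      ∃ i j, i ≠ j ∧ markMap ((a.val : ZMod 4), (b.val : ZMod 4)) d
        ((a'.val : ZMod 4), (b'.val : ZMod 4)) i
        = markMap ((a.val : ZMod 4), (b.val : ZMod 4)) d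
          ((a'.val : ZMod 4), (b'.val : ZMod 4)) j := by
  decide +kernel

theorem mark_AB : Function.Bijective (markMap (0, 1) (0, 0) (2, 1)) := by decide +kernel

theorem mark_BA : Function.Bijective (markMap (2, 1) (2, 0) (0, 1)) := by decide +kernel

/-- Exclusive complement of type A steps. -/
def exclA : Finset K2 := {(0, 0), (0, 2), (1, 0), (1, 2), (2, 0), (2, 2), (3, 1), (3, 3)}

/-- Exclusive complement of type B steps. -/
def exclB : Finset K2 := {(0, 0), (0, 1), (0, 2), (0, 3), (1, 0), (1, 2), (3, 0), (3, 2)}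

/-- Row/column labels of a point of the link gadget, as `(a, b) ∈ (ℤ/3)²`. -/
def linkPt (u v : ZMod 3) : ZMod 3 × ZMod 3 := (2 * (v - u), 2 * (u + v))

/-- Points of the link gadget over a point of `(ℤ/4)²`. -/
def linkSlope (w : K2) : ZMod 3 × ZMod 3 :=
  linkPt (if w ∈ exclA then 0 else 1) (if w ∈ exclB then 0 else 1)

/-- All sixteen points of `(ℤ/4)²`. -/
def allK2 (i : Fin 16) : K2 := (((i.val / 4 : ℕ) : ZMod 4), ((i.val % 4 : ℕ) : ZMod 4))

/-- The 24 points of the link gadget. -/
def linkE : Fin 16 ⊕ Fin 8 → K2 × (ZMod 3 × ZMod 3)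
  | Sum.inl i => (allK2 i, linkSlope (allK2 i))
  | Sum.inr i => (commonU i, linkPt 2 2)

/-- The sign attached to a bit. -/
def sgn {R : Type} [One R] [Neg R] (s : Bool) : R := if s then 1 else -1

/-- The 144 points covered by the link gadget. -/
def linkMap (v : K2) (s : Bool) :
    (Fin 2 × ZMod 3) × (Fin 16 ⊕ Fin 8) → K2 × (ZMod 3 × ZMod 3) :=
  fun p => ((if p.1.1 = 0 then 0 else v) + (linkE p.2).1,
    (p.1.2 + (linkE p.2).2.1, sgn s * p.1.2 + (linkE p.2).2.2))

theorem link_injA : Function.Injective (linkMap (0, 1) true) := by decide +kernel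

theorem link_injB : Function.Injective (linkMap (2, 1) false) := by decide +kernel

theorem link_collision : ∀ v : K2, ∀ s : Bool, (IsA v ∧ s = false) ∨ (IsB v ∧ s = true) →
    ∃ i j, i ≠ j ∧ linkMap v s i = linkMap v s j := by decide +kernel

theorem commonU_inj : Function.Injective commonU := by decide +kernel

theorem commonU_iff : ∀ w : K2, (∃ i, commonU i = w) ↔ (w.2 = 0 ∨ w.2 = 2) := by decide +kernel

theorem decode6 : ∀ x : ZMod 64,
    (∑ i : Fin 6, if x.val.testBit i.val then (2 : ZMod 64) ^ i.val else 0) = x := by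
  decide +kernel

theorem decode4 : ∀ x : ZMod 16,
    (∑ i : Fin 4, if x.val.testBit i.val then (2 : ZMod 16) ^ i.val else 0) = x := by
  decide +kernel

end Vale.Agent.P043.D4
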